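import Vale.Agent.P155.Ex795.Sc

/-!
# P155, stage 2: existence of carpets with independent fair signs on the holes

`fair_of`: from the limit of the gaskets and the heights (`FullStatement`) and the absence of
bottlenecks (`SAMEP`).
-/

namespace Vale.Agent.P155.Ex795

open Metric TopologicalSpace Topology MeasureTheory Filter Vale.Agent.P155 T211Q Set

/-- the first point of the dense sequence in an open set -/
theorem denseSeq_idx {U : Set ℂ} (hU : IsOpen U) (hne : U.Nonempty) : denseSeq ℂ (Q1.idx U) ∈ U := by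
  obtain ⟨i, hi⟩ := (denseRange_denseSeq ℂ).exists_mem_open hU hne
  exact Nat.sInf_mem (s := {i | denseSeq ℂ i ∈ U}) ⟨i, hi⟩

variable {Θ : Type} [mΘ : MeasurableSpace Θ] {P : Measure Θ} {Ω : Set ℂ}
    {G : ℕ → Θ → NonemptyCompacts ℂ} {H : ℕ → Θ → (ℂ → ℝ) → ℝ}

/-- the signs on the holes -/
theorem xi_hole (ho : IsOpen Ω) (hfr : ∀ k x, frontier Ω ⊆ (G k x : Set ℂ))
    {y : Θ × (ℕ × ℕ → Bool)} (t : Typ Ω (fun k => G k y.1) (fun k => H k y.1)) (k : ℕ) {z : ℂ}
    (hz : z ∈ Ω \ (G (k + 1) y.1 : Set ℂ)) :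
    xi (act Ω G) (sgn Ω G H) (k + 1, Q1.idx (connectedComponentIn (Ω \ G (k + 1) y.1) z)) y =
      sg Ω G H k z y.1 := by
  set C := connectedComponentIn (Ω \ (G (k + 1) y.1 : Set ℂ)) z with hC
  have hCo : IsOpen C := (ho.sdiff (G (k + 1) y.1).isCompact.isClosed).connectedComponentIn
  have hd := denseSeq_idx hCo ⟨z, mem_connectedComponentIn hz⟩
  have hd' := connectedComponentIn_subset _ _ hd
  have hact : y.1 ∈ act Ω G (k + 1, Q1.idx C) := by
    refine ⟨Nat.succ_ne_zero k, hd'.1, hd'.2, ?_⟩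
    simp only
    rw [idb_eq ho (hfr _ _) hd'.1, ← connectedComponentIn_eq hd]
  unfold xi
  rw [if_pos hact]
  exact sg_comp ho t k hd

theorem fair_of_sc [IsProbabilityMeasure P] (ho : IsOpen Ω) (hb : Bornology.IsBounded Ω)
    (sc : IsSignedCarpets P Ω G H) (hfr : ∀ k x, frontier Ω ⊆ (G k x : Set ℂ))
    {S : TempApprox Ω} (hconv : ConvTo Ω S P G H) (hS : SAMEP Ω S) :
    FairCarpets (P.prod (coins (ℕ × ℕ))) Ω (fun k y => G k y.1)
      (fun k i y => xi (act Ω G) (sgn Ω G H) (k, i) y) := by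
  have mG := fun k => (sc.meas k).1
  have hle : ⨆ k, MeasurableSpace.comap (G k) (borel (NonemptyCompacts ℂ)) ≤ mΘ :=
    iSup_le fun k => (mG k).comap_le
  have hact : ∀ p : ℕ × ℕ, MeasurableSet (act Ω G p) := fun p => hle _ (meas_act p)
  have ms : ∀ p : ℕ × ℕ, Measurable (sgn Ω G H p) := fun p => measurable_sg sc _ _
  have hs : ∀ (p : ℕ × ℕ) x, sgn Ω G H p x = 1 ∨ sgn Ω G H p x = -1 := fun p x => sg_pm _ _ _
  have hmom := mom_xi (P := P) hle hact ms hs (act_zero ho sc hfr hconv hS)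
  have mG' : ∀ k, @Measurable _ _ _ (borel (NonemptyCompacts ℂ))
      (fun y : Θ × (ℕ × ℕ → Bool) => G k y.1) := fun k => (mG k).comp measurable_fst
  have mξ : ∀ k i, Measurable (fun y => xi (act Ω G) (sgn Ω G H) (k, i) y) :=
    fun k i => hmom.meas (k, i)
  refine ⟨inferInstance, mξ, fun k i => hmom.pm (k, i), fun k i => hmom.half (k, i), hmom.iind,
    mG', ?_, ?_⟩
  · have e : (⨆ k, MeasurableSpace.comap (fun y : Θ × (ℕ × ℕ → Bool) => G k y.1)
        (borel (NonemptyCompacts ℂ))) =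
        (⨆ k, MeasurableSpace.comap (G k) (borel (NonemptyCompacts ℂ))).comap Prod.fst := by
      rw [MeasurableSpace.comap_iSup]
      exact iSup_congr fun k => (MeasurableSpace.comap_comp).symm
    rw [e]
    exact hmom.ind
  · refine sc_congr (sc_fst sc (coins (ℕ × ℕ))) (Eventually.of_forall fun y k => rfl) ?_ ?_
    · have h1 : ∀ᵐ x ∂P, Typ Ω (fun k => G k x) (fun k => H k x) ∧
          (∀ φ, IsTest Ω φ → H 0 x φ = 0) ∧
          (∀ k : ℕ, ∃ g : ℂ → ℝ, Measurable g ∧ (∀ z, |g z| ≤ k) ∧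
            ∀ φ, IsTest Ω φ → H k x φ = ∫ z, g z * φ z) ∧
          (∀ k, volume ((G k x : Set ℂ) ∩ Ω) = 0) := by
        filter_upwards [typ sc, sc.zero, sc.rep, sc.null] with x a1 a2 a3 a4
        exact ⟨a1, a2.2, a3, a4⟩
      have h2 : ∀ᵐ y ∂(P.prod (coins (ℕ × ℕ))), _ := Measure.quasiMeasurePreserving_fst.ae h1
      filter_upwards [h2] with y hy k φ hφ
      obtain ⟨t, b1, b2, b3⟩ := hy
      exact height_eq ho t b1 b2 b3 (ξ := fun j i => xi (act Ω G) (sgn Ω G H) (j, i) y)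
        (fun k i => hmom.pm (k, i) y) (fun k z hz => xi_hole ho hfr t k hz) k hφ
    · intro k
      refine ⟨mG' k, fun φ hφ => ⟨meas_height ho mG' (fun k y => hfr k y.1) mξ k hφ, ?_⟩⟩
      exact (U.measurable_green hb hφ).comp (mG' k)

/-- **existence of carpets with fair signs** -/
theorem fair_of (hFull : Uq.FullStatement) {Ω : Set ℂ} (ho : IsOpen Ω)
    (hb : Bornology.IsBounded Ω) (hne : Ω.Nonempty) (hsc : SimplyConnectedSpace Ω)
    (S : TempApprox Ω) (hS : SAMEP Ω S) :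
    ∃ (Θ : Type) (_ : MeasurableSpace Θ) (P : Measure Θ) (G : ℕ → Θ → NonemptyCompacts ℂ)
      (ξ : ℕ → ℕ → Θ → ℝ), FairCarpets P Ω G ξ := by
  obtain ⟨⟨Θ, mΘ, P, G, H, hP, sc⟩, huni⟩ := hFull Ω ho hb hne hsc S
  obtain ⟨x0, hx0⟩ := sc.zero.exists
  set Fr : NonemptyCompacts ℂ := G 0 x0 with hFr
  have hFrΩ : (Fr : Set ℂ) = frontier Ω := hx0.1
  have hfr : ∀ k x, frontier Ω ⊆ ((G k x ⊔ Fr : NonemptyCompacts ℂ) : Set ℂ) := by
    intro k x
    rw [NonemptyCompacts.coe_sup, hFrΩ]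
    exact subset_union_right
  have hG : ∀ᵐ x ∂P, ∀ k, G k x ⊔ Fr = G k x := by
    filter_upwards [typ sc] with x hx k
    apply NonemptyCompacts.ext
    rw [NonemptyCompacts.coe_sup, hFrΩ]
    exact union_eq_self_of_subset_right (hx.fr k)
  have mG' : ∀ k, @Measurable _ _ _ (borel (NonemptyCompacts ℂ)) (fun x => G k x ⊔ Fr) :=
    fun k => meas_sup (sc.meas k).1 Fr
  have sc' : IsSignedCarpets P Ω (fun k x => G k x ⊔ Fr) H := by
    refine sc_congr sc hG (Eventually.of_forall fun x k φ _ => rfl) fun k => ⟨mG' k, fun φ hφ =>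
      ⟨((sc.meas k).2 φ hφ).1, ?_⟩⟩
    exact (U.measurable_green hb hφ).comp (mG' k)
  have hconv : ConvTo Ω S P (fun k x => G k x ⊔ Fr) H := huni Θ mΘ P _ H hP sc'
  exact ⟨Θ × (ℕ × ℕ → Bool), inferInstance, P.prod (coins (ℕ × ℕ)), _, _,
    fair_of_sc ho hb sc' hfr hconv hS⟩

end Vale.Agent.P155.Ex795
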