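import Mathlib

/-!
# P155, stage 2, signs of the limit: from continuous functions of a sequence to events
-/

namespace Vale.Agent.P155.Ex795

open TopologicalSpace Topology MeasureTheory Filter Set NNReal

variable {Θ : Type*} {mΘ : MeasurableSpace Θ} {P : Measure Θ} {X : Type*} [TopologicalSpace X]
    [PseudoMetrizableSpace X] {G : ℕ → Θ → X}

/-- the cylinder events of closed sets -/
def cyl (G : ℕ → Θ → X) : Set (Set Θ) :=
  piiUnionInter (fun k => {s | ∃ F : Set X, IsClosed F ∧ s = G k ⁻¹' F}) univ

omit [PseudoMetrizableSpace X] in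
theorem isPi_cyl : IsPiSystem (cyl G) := by
  refine isPiSystem_piiUnionInter _ (fun k => ?_) univ
  rintro _ ⟨F, hF, rfl⟩ _ ⟨F', hF', rfl⟩ _
  exact ⟨F ∩ F', hF.inter hF', rfl⟩

omit [PseudoMetrizableSpace X] in
theorem gen_cyl : ⨆ k, MeasurableSpace.comap (G k) (borel X) =
    MeasurableSpace.generateFrom (cyl G) := by
  have h0 : ∀ k, MeasurableSpace.comap (G k) (borel X) =
      MeasurableSpace.generateFrom {s | ∃ F : Set X, IsClosed F ∧ s = G k ⁻¹' F} := by
    intro k
    rw [borel_eq_generateFrom_isClosed, MeasurableSpace.comap_generateFrom]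
    congr 1
    ext s
    constructor
    · rintro ⟨F, hF, rfl⟩
      exact ⟨F, hF, rfl⟩
    · rintro ⟨F, hF, rfl⟩
      exact ⟨F, hF, rfl⟩
  apply le_antisymm
  · refine iSup_le fun k => ?_
    rw [h0 k]
    refine MeasurableSpace.generateFrom_mono ?_
    exact subset_piiUnionInter (π := fun k => {s | ∃ F : Set X, IsClosed F ∧ s = G k ⁻¹' F})
      (mem_univ k)
  · refine MeasurableSpace.generateFrom_le ?_
    rintro _ ⟨t, -, f, hf, rfl⟩
    refine MeasurableSet.biInter t.countable_toSet fun k hk => ?_
    refine le_iSup (fun k => MeasurableSpace.comap (G k) (borel X)) k _ ?_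
    rw [h0 k]
    exact MeasurableSpace.measurableSet_generateFrom (hf k hk)

theorem set_zero {N : ℕ} [IsFiniteMeasure P]
    (mG : ∀ k, @Measurable _ _ _ (borel X) (G k)) {ψ : Θ → ℝ} (hψ : Integrable ψ P)
    (h : ∀ N', N ≤ N' → ∀ F : (Fin N' → X) → ℝ, Continuous F → (∀ g, |F g| ≤ 1) →
      ∫ x, F (fun l => G l x) * ψ x ∂P = 0) {A : Set Θ}
    (hA : MeasurableSet[⨆ k, MeasurableSpace.comap (G k) (borel X)] A) :
    ∫ x in A, ψ x ∂P = 0 := by
  have hle : ⨆ k, MeasurableSpace.comap (G k) (borel X) ≤ mΘ := iSup_le fun k => (mG k).comap_le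
  have hcyl : ∀ A ∈ cyl G, ∫ x in A, ψ x ∂P = 0 := by
    rintro _ ⟨t, -, f, hf, rfl⟩
    have hfF : ∀ k, ∃ F : Set X, IsClosed F ∧ (k ∈ t → f k = G k ⁻¹' F) := by
      intro k
      by_cases hk : k ∈ t
      · obtain ⟨F, hF, h1⟩ := hf k hk
        exact ⟨F, hF, fun _ => h1⟩
      · exact ⟨∅, isClosed_empty, fun h => absurd h hk⟩
    choose Fc hFc hFe using hfF
    -- the level
    set N' := max N (t.sup id + 1) with hN'
    have htN : ∀ k ∈ t, k < N' := fun k hk => by
      have := Finset.le_sup (f := id) hk
      simp only [id] at this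
      omega
    set φ : ℕ → (Fin N' → X) → ℝ := fun n g =>
      ∏ l : Fin N', (if (l : ℕ) ∈ t then (((hFc l).apprSeq n (g l) : ℝ≥0) : ℝ) else 1) with hφ
    have hφc : ∀ n, Continuous (φ n) := by
      intro n
      refine continuous_finsetProd _ fun l _ => ?_
      by_cases hl : (l : ℕ) ∈ t
      · simp only [if_pos hl]
        exact NNReal.continuous_coe.comp (((hFc l).apprSeq n).continuous.comp (continuous_apply l))
      · simp only [if_neg hl]
        exact continuous_const
    have hφ1 : ∀ n g, |φ n g| ≤ 1 := by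
      intro n g
      rw [hφ]
      simp only
      rw [Finset.abs_prod]
      refine Finset.prod_le_one (fun _ _ => abs_nonneg _) fun l _ => ?_
      split_ifs
      · rw [abs_of_nonneg (NNReal.coe_nonneg _)]
        exact_mod_cast HasOuterApproxClosed.apprSeq_apply_le_one (hFc l) n (g l)
      · rw [abs_one]
    have hφm : ∀ n, Measurable fun x => φ n (fun l => G l x) := by
      intro n
      let _ : MeasurableSpace X := borel X
      have : BorelSpace X := ⟨rfl⟩
      refine Finset.measurable_prod _ fun l _ => ?_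
      by_cases hl : (l : ℕ) ∈ t
      · simp only [if_pos hl]
        exact (NNReal.continuous_coe.comp ((hFc l).apprSeq n).continuous).measurable.comp (mG l)
      · simp only [if_neg hl]
        exact measurable_const
    have hφl : ∀ x, Tendsto (fun n => φ n (fun l => G l x)) atTop
        (𝓝 (indicator (⋂ k ∈ t, f k) (fun _ => (1 : ℝ)) x)) := by
      intro x
      have h1 : ∀ l : Fin N', Tendsto (fun n => (if (l : ℕ) ∈ t then
          (((hFc l).apprSeq n (G l x) : ℝ≥0) : ℝ) else 1)) atTop
          (𝓝 (if (l : ℕ) ∈ t then indicator (Fc l) (fun _ => (1 : ℝ)) (G l x) else 1)) := by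
        intro l
        by_cases hl : (l : ℕ) ∈ t
        · simp only [if_pos hl]
          have h2 := HasOuterApproxClosed.tendsto_apprSeq (hFc l)
          rw [tendsto_pi_nhds] at h2
          have h3 := (NNReal.continuous_coe.tendsto _).comp (h2 (G l x))
          have h4 : ((indicator (Fc l) (fun _ => (1 : ℝ≥0)) (G l x) : ℝ≥0) : ℝ) =
              indicator (Fc l) (fun _ => (1 : ℝ)) (G l x) := by
            by_cases hm : G l x ∈ Fc l
            · rw [indicator_of_mem hm, indicator_of_mem hm, NNReal.coe_one]
            · rw [indicator_of_notMem hm, indicator_of_notMem hm, NNReal.coe_zero]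
          rw [← h4]
          exact h3
        · simp only [if_neg hl]
          exact tendsto_const_nhds
      have h2 := tendsto_finsetProd (Finset.univ : Finset (Fin N')) fun l _ => h1 l
      have h3 : ∏ l : Fin N', (if (l : ℕ) ∈ t then indicator (Fc l) (fun _ => (1 : ℝ)) (G l x)
          else 1) = indicator (⋂ k ∈ t, f k) (fun _ => (1 : ℝ)) x := by
        by_cases hx : x ∈ ⋂ k ∈ t, f k
        · rw [indicator_of_mem hx]
          refine Finset.prod_eq_one fun l _ => ?_
          split_ifs with hl
          · rw [mem_iInter₂] at hx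
            have := hx l hl
            rw [hFe l hl] at this
            have h5 : G l x ∈ Fc l := this
            exact indicator_of_mem h5 (fun _ => (1 : ℝ))
          · rfl
        · rw [indicator_of_notMem hx]
          rw [mem_iInter₂] at hx
          push Not at hx
          obtain ⟨k, hk, hxk⟩ := hx
          refine Finset.prod_eq_zero (Finset.mem_univ (⟨k, htN k hk⟩ : Fin N')) ?_
          rw [if_pos (show ((⟨k, htN k hk⟩ : Fin N') : ℕ) ∈ t from hk)]
          rw [hFe k hk] at hxk
          have h5 : G k x ∉ Fc k := hxk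
          exact indicator_of_notMem h5 (fun _ => (1 : ℝ))
      rw [← h3]
      exact h2
    have hmA : MeasurableSet (⋂ k ∈ t, f k) := by
      refine hle _ ?_
      rw [gen_cyl]
      exact MeasurableSpace.measurableSet_generateFrom ⟨t, by simp, f, hf, rfl⟩
    have hlim : Tendsto (fun n => ∫ x, φ n (fun l => G l x) * ψ x ∂P) atTop
        (𝓝 (∫ x, indicator (⋂ k ∈ t, f k) (fun _ => (1 : ℝ)) x * ψ x ∂P)) := by
      refine tendsto_integral_of_dominated_convergence (fun x => |ψ x|)
        (fun n => ((hφm n).aestronglyMeasurable).mul hψ.aestronglyMeasurable) hψ.abs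
        (fun n => Eventually.of_forall fun x => ?_) (Eventually.of_forall fun x => ?_)
      · rw [Real.norm_eq_abs, abs_mul]
        exact mul_le_of_le_one_left (abs_nonneg _) (hφ1 n _)
      · exact (hφl x).mul_const _
    have h0 : ∀ n, ∫ x, φ n (fun l => G l x) * ψ x ∂P = 0 := fun n =>
      h N' (le_max_left _ _) (φ n) (hφc n) (hφ1 n)
    simp only [h0] at hlim
    have h1 := tendsto_nhds_unique hlim tendsto_const_nhds
    rw [← integral_indicator hmA, ← h1]
    refine integral_congr_ae (Eventually.of_forall fun x => ?_)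
    beta_reduce
    by_cases hx : x ∈ ⋂ k ∈ t, f k
    · rw [indicator_of_mem hx, indicator_of_mem hx, one_mul]
    · rw [indicator_of_notMem hx, indicator_of_notMem hx, zero_mul]
  refine MeasurableSpace.induction_on_inter (C := fun s _ => ∫ x in s, ψ x ∂P = 0)
    (gen_cyl (G := G)) isPi_cyl (by simp) hcyl ?_ ?_ A hA
  · intro s hs h1
    have h2 : ∫ x in univ, ψ x ∂P = 0 := by
      refine hcyl univ ⟨∅, by simp, fun _ => univ, by simp, by simp⟩
    have h3 := integral_add_compl (hle s hs) hψ
    rw [h1, zero_add] at h3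
    rw [h3, ← setIntegral_univ]
    exact h2
  · intro f hfd hfm h1
    rw [integral_iUnion (fun i => hle _ (hfm i)) hfd hψ.integrableOn]
    simp only [h1, tsum_zero]

end Vale.Agent.P155.Ex795
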