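import Vale.Agent.P155.Ex795.Star
import Vale.Agent.P155.Ex795.SetZero

/-!
# P155, stage 2, signs of the limit: the moments of the signs of the holes
-/

namespace Vale.Agent.P155.Ex795

open Metric TopologicalSpace Topology MeasureTheory Filter Vale.Agent.P155 T211Q Set

variable {Θ : Type} [MeasurableSpace Θ] {P : Measure Θ} {Ω : Set ℂ}
    {G : ℕ → Θ → NonemptyCompacts ℂ} {H : ℕ → Θ → (ℂ → ℝ) → ℝ} {m N : ℕ}

open Classical in
/-- the integrand -/
noncomputable def psi (Ω : Set ℂ) (G : ℕ → Θ → NonemptyCompacts ℂ) (H : ℕ → Θ → (ℂ → ℝ) → ℝ)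
    (k : Fin (m + 1) → ℕ) (z : Fin (m + 1) → ℂ) (x : Θ) : ℝ :=
  ((∏ j, (if z j ∈ (G (k j + 1) x : Set ℂ) then 0 else 1)) *
    ∏ j, (if j ≠ 0 ∧ k j = k 0 then (if bott (z 0) (z j) (G (k 0 + 1) x) = 0 then 1 else 0)
      else 1)) * ∏ j, sg Ω G H (k j) (z j) x

omit [MeasurableSpace Θ] in
theorem psi_eq (D : Dat m N) (x : Θ) : psi Ω G H D.k D.z x =
    (D.V1 (fun l => G l x) * D.V2 (fun l => G l x)) * ∏ j, sg Ω G H (D.k j) (D.z j) x := rfl

theorem measurable_V (mG : ∀ k, @Measurable _ _ _ (borel (NonemptyCompacts ℂ)) (G k))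
    (D : Dat m N) : Measurable fun x => D.V1 (fun l => G l x) * D.V2 (fun l => G l x) := by
  refine Measurable.mul ?_ ?_
  · refine measurable_of_tendsto_metrizable
      (f := fun (n : ℕ) x => D.W1 (1 / ((n : ℝ) + 1)) (fun l => G l x))
      (fun n => measurable_cont mG (D.continuous_W1 _)) ?_
    rw [tendsto_pi_nhds]
    exact fun x => tendsto_W1 D _
  · refine measurable_of_tendsto_metrizable
      (f := fun (n : ℕ) x => D.W2 (1 / ((n : ℝ) + 1)) (fun l => G l x))
      (fun n => measurable_cont mG (D.continuous_W2 _)) ?_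
    rw [tendsto_pi_nhds]
    exact fun x => tendsto_W2 D _

theorem abs_V (D : Dat m N) (g) : |D.V1 g * D.V2 g| ≤ 1 := by
  rw [abs_mul]
  refine mul_le_one₀ ?_ (abs_nonneg _) ?_
  · refine le_of_tendsto (tendsto_W1 D g).abs (Eventually.of_forall fun n => ?_)
    rw [abs_of_nonneg (D.W1_nonneg _ _)]
    exact D.W1_le _ _
  · refine le_of_tendsto (tendsto_W2 D g).abs (Eventually.of_forall fun n => ?_)
    rw [abs_of_nonneg (D.W2_nonneg _ _)]
    exact D.W2_le _ _

/-- the moment on the events of the carpets -/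
theorem psi_zero [IsProbabilityMeasure P] (ho : IsOpen Ω) (sc : IsSignedCarpets P Ω G H)
    {S : TempApprox Ω} (hconv : ConvTo Ω S P G H) (hS : SAMEP Ω S)
    (k : Fin (m + 1) → ℕ) (z : Fin (m + 1) → ℂ) (hz : ∀ j, z j ∈ Ω) {A : Set Θ}
    (hA : MeasurableSet[⨆ k, MeasurableSpace.comap (G k) (borel (NonemptyCompacts ℂ))] A) :
    ∫ x in A, psi Ω G H k z x ∂P = 0 := by
  have mG := fun k => (sc.meas k).1
  have hkN : ∀ N', Finset.univ.sup k + 2 ≤ N' → ∀ j, k j + 1 < N' := fun N' hN' j => by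
    have := Finset.le_sup (f := k) (Finset.mem_univ j)
    omega
  set D : Dat m (Finset.univ.sup k + 2) := ⟨k, hkN _ le_rfl, z⟩ with hD
  have hmeas : Measurable (psi Ω G H k z) :=
    (measurable_V mG D).mul (measurable_psg sc D)
  have hint : Integrable (psi Ω G H k z) P := by
    refine Integrable.of_bound hmeas.aestronglyMeasurable 1 (Eventually.of_forall fun x => ?_)
    rw [Real.norm_eq_abs]
    have e := psi_eq (Ω := Ω) (G := G) (H := H) D x
    have e' : psi Ω G H D.k D.z x = psi Ω G H k z x := rfl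
    rw [← e', e, abs_mul, abs_psg, mul_one]
    exact abs_V D _
  refine set_zero (N := Finset.univ.sup k + 2) mG hint (fun N' hN' F hF hF1 => ?_) hA
  have h1 := star0 ho sc hconv hS ⟨k, hkN _ hN', z⟩ hz hF hF1
  refine Eq.trans (integral_congr_ae (Eventually.of_forall fun x => ?_)) h1
  beta_reduce
  rw [mul_assoc]
  rfl

/-! ### the signs of the holes -/

/-- the points of the dense sequence which are the indices of their holes -/
def act (Ω : Set ℂ) (G : ℕ → Θ → NonemptyCompacts ℂ) (p : ℕ × ℕ) : Set Θ :=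
  {x | p.1 ≠ 0 ∧ denseSeq ℂ p.2 ∈ Ω ∧ denseSeq ℂ p.2 ∉ (G p.1 x : Set ℂ) ∧
    idb (denseSeq ℂ p.2) (G p.1 x) = p.2}

/-- the signs -/
noncomputable def sgn (Ω : Set ℂ) (G : ℕ → Θ → NonemptyCompacts ℂ) (H : ℕ → Θ → (ℂ → ℝ) → ℝ)
    (p : ℕ × ℕ) (x : Θ) : ℝ := sg Ω G H (p.1 - 1) (denseSeq ℂ p.2) x

omit [MeasurableSpace Θ] in
theorem meas_act (p : ℕ × ℕ) :
    MeasurableSet[⨆ k, MeasurableSpace.comap (G k) (borel (NonemptyCompacts ℂ))] (act Ω G p) := by
  by_cases h0 : p.1 ≠ 0 ∧ denseSeq ℂ p.2 ∈ Ω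
  · refine le_iSup (fun k => MeasurableSpace.comap (G k) (borel (NonemptyCompacts ℂ))) p.1 _ ?_
    refine ⟨{K | 0 < infDist (denseSeq ℂ p.2) (K : Set ℂ)} ∩ idb (denseSeq ℂ p.2) ⁻¹' {p.2}, ?_, ?_⟩
    · let _ : MeasurableSpace (NonemptyCompacts ℂ) := borel _
      have : BorelSpace (NonemptyCompacts ℂ) := ⟨rfl⟩
      exact ((isOpen_lt continuous_const (continuous_infDist _)).measurableSet).inter
        (measurable_idb _ (measurableSet_singleton _))
    · ext x
      have hiff : denseSeq ℂ p.2 ∉ (G p.1 x : Set ℂ) ↔ 0 < infDist (denseSeq ℂ p.2) (G p.1 x : Set ℂ) :=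
        (G p.1 x).isCompact.isClosed.notMem_iff_infDist_pos (G p.1 x).nonempty
      constructor
      · rintro ⟨h1, h2⟩
        exact ⟨h0.1, h0.2, hiff.2 h1, h2⟩
      · rintro ⟨-, -, h1, h2⟩
        exact ⟨hiff.1 h1, h2⟩
  · have : act Ω G p = ∅ := by
      ext x
      simp only [mem_empty_iff_false, iff_false]
      rintro ⟨h1, h2, -, -⟩
      exact h0 ⟨h1, h2⟩
    rw [this]
    exact @MeasurableSet.empty _ (_)

omit [MeasurableSpace Θ] in
/-- two indices of the same level do not belong to the same hole -/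
theorem bott_zero_of_act (ho : IsOpen Ω) (hfr : ∀ k x, frontier Ω ⊆ (G k x : Set ℂ)) {k i j : ℕ}
    {x : Θ} (hi : x ∈ act Ω G (k, i)) (hj : x ∈ act Ω G (k, j)) (hij : i ≠ j) :
    bott (denseSeq ℂ i) (denseSeq ℂ j) (G k x) = 0 := by
  by_contra hne
  have hpos : 0 < bott (denseSeq ℂ i) (denseSeq ℂ j) (G k x : Set ℂ) :=
    lt_of_le_of_ne (bott_nonneg _ _ _) (Ne.symm hne)
  obtain ⟨-, hi1, hi2, hi3⟩ := hi
  obtain ⟨-, hj1, hj2, hj3⟩ := hj
  simp only at hi1 hi2 hi3 hj1 hj2 hj3
  rw [← hole_iff ho (G k x).isCompact.isClosed (G k x).nonempty (hfr k x) hi1] at hpos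
  have e := connectedComponentIn_eq hpos
  apply hij
  rw [← hi3, ← hj3, idb_eq ho (hfr k x) hi1, idb_eq ho (hfr k x) hj1, e]

theorem act_zero [IsProbabilityMeasure P] (ho : IsOpen Ω) (sc : IsSignedCarpets P Ω G H)
    (hfr : ∀ k x, frontier Ω ⊆ (G k x : Set ℂ))
    {S : TempApprox Ω} (hconv : ConvTo Ω S P G H) (hS : SAMEP Ω S)
    (A : Finset (ℕ × ℕ)) (hA : A.Nonempty) (D : Set Θ)
    (hD : MeasurableSet[⨆ k, MeasurableSpace.comap (G k) (borel (NonemptyCompacts ℂ))] D) :
    ∫ x in D, ∏ p ∈ A, indicator (act Ω G p) (sgn Ω G H p) x ∂P = 0 := by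
  have mG := fun k => (sc.meas k).1
  have hle : ⨆ k, MeasurableSpace.comap (G k) (borel (NonemptyCompacts ℂ)) ≤ ‹MeasurableSpace Θ› :=
    iSup_le fun k => (mG k).comap_le
  by_cases hgood : ∀ p ∈ A, p.1 ≠ 0 ∧ denseSeq ℂ p.2 ∈ Ω
  · -- enumerate `A`
    obtain ⟨m, hm⟩ : ∃ m, A.card = m + 1 := ⟨A.card - 1, by
      have := hA.card_pos
      omega⟩
    set e : Fin (m + 1) ≃ A := (A.equivFinOfCardEq hm).symm with he
    set E : Set Θ := ⋂ p ∈ A, act Ω G p with hE
    have hEm : MeasurableSet[⨆ k, MeasurableSpace.comap (G k) (borel (NonemptyCompacts ℂ))] E :=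
      MeasurableSet.biInter A.countable_toSet fun p _ => meas_act p
    have h1 := psi_zero ho sc hconv hS (fun j => (e j).1.1 - 1) (fun j => denseSeq ℂ (e j).1.2)
      (fun j => (hgood _ (e j).2).2) (hD.inter hEm)
    rw [← integral_indicator (hle _ (hD.inter hEm))] at h1
    rw [← integral_indicator (hle _ hD), ← h1]
    refine integral_congr_ae (Eventually.of_forall fun x => ?_)
    by_cases hxD : x ∈ D
    · rw [indicator_of_mem hxD]
      by_cases hxE : x ∈ E
      · rw [indicator_of_mem (show x ∈ D ∩ E from ⟨hxD, hxE⟩)]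
        rw [hE, mem_iInter₂] at hxE
        have hx : ∀ j, x ∈ act Ω G (e j).1 := fun j => hxE _ (e j).2
        unfold psi
        have e0 : ∀ j, (e j).1.1 - 1 + 1 = (e j).1.1 := fun j => by
          have := (hgood _ (e j).2).1
          omega
        classical
        have hV1 : (∏ j, (if denseSeq ℂ (e j).1.2 ∈ (G ((e j).1.1 - 1 + 1) x : Set ℂ) then (0 : ℝ)
            else 1)) = 1 := by
          refine Finset.prod_eq_one fun j _ => ?_
          rw [e0, if_neg (hx j).2.2.1]
        have hV2 : (∏ j, (if j ≠ 0 ∧ (e j).1.1 - 1 = (e 0).1.1 - 1 then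
            (if bott (denseSeq ℂ (e 0).1.2) (denseSeq ℂ (e j).1.2) (G ((e 0).1.1 - 1 + 1) x) = 0
              then (1 : ℝ) else 0) else 1)) = 1 := by
          refine Finset.prod_eq_one fun j _ => ?_
          by_cases hj : j ≠ 0 ∧ (e j).1.1 - 1 = (e 0).1.1 - 1
          · rw [if_pos hj, if_pos]
            rw [e0]
            have hk : (e j).1.1 = (e 0).1.1 := by
              have h6 := e0 j
              have h7 := e0 0
              omega
            have h3 := hx j
            have h4 := hx 0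
            have e3 : (e j).1 = ((e 0).1.1, (e j).1.2) := Prod.ext hk rfl
            rw [e3] at h3
            refine bott_zero_of_act ho hfr (i := (e 0).1.2) (j := (e j).1.2) h4 h3 fun h5 => ?_
            exact hj.1 (e.injective (Subtype.ext (Prod.ext hk h5.symm)))
          · rw [if_neg hj]
        have hP : ∏ p ∈ A, indicator (act Ω G p) (sgn Ω G H p) x =
            ∏ j, sg Ω G H ((e j).1.1 - 1) (denseSeq ℂ (e j).1.2) x := by
          rw [← Finset.prod_coe_sort A, ← Equiv.prod_comp e]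
          refine Finset.prod_congr rfl fun j _ => ?_
          rw [indicator_of_mem (hx j)]
          rfl
        rw [hV1, hV2, one_mul, one_mul, hP]
      · rw [indicator_of_notMem (fun h => hxE h.2)]
        rw [hE, mem_iInter₂] at hxE
        push Not at hxE
        obtain ⟨p, hp, hxp⟩ := hxE
        exact Finset.prod_eq_zero hp (indicator_of_notMem hxp _)
    · rw [indicator_of_notMem hxD, indicator_of_notMem (fun h => hxD h.1)]
  · push Not at hgood
    obtain ⟨p, hp, hpp⟩ := hgood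
    have h0 : ∀ x, ∏ p ∈ A, indicator (act Ω G p) (sgn Ω G H p) x = 0 := by
      intro x
      refine Finset.prod_eq_zero hp (indicator_of_notMem ?_ _)
      rintro ⟨h1, h2, -, -⟩
      exact hpp h1 h2
    simp only [h0, integral_zero]

end Vale.Agent.P155.Ex795
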