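import Vale.Agent.P155.Ex795.Ind

/-!
# P155, stage 2, signs of the limit: completion of the signs by independent coins
-/

namespace Vale.Agent.P155.Ex795

open TopologicalSpace Topology MeasureTheory ProbabilityTheory Filter Set

/-- the law of a fair coin -/
noncomputable def fair : Measure Bool :=
  (2⁻¹ : ENNReal) • Measure.dirac true + (2⁻¹ : ENNReal) • Measure.dirac false

instance : IsProbabilityMeasure fair := by
  constructor
  unfold fair
  simp [ENNReal.inv_two_add_inv_two]

/-- the sign of a coin -/
noncomputable def cs (b : Bool) : ℝ := if b then 1 else -1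

theorem cs_pm (b : Bool) : cs b = 1 ∨ cs b = -1 := by
  cases b
  · exact Or.inr rfl
  · exact Or.inl rfl

theorem integral_fair (f : Bool → ℝ) : ∫ b, f b ∂fair = (f true + f false) / 2 := by
  unfold fair
  rw [integral_add_measure, integral_smul_measure, integral_smul_measure, integral_dirac,
    integral_dirac]
  · simp only [ENNReal.toReal_inv, ENNReal.toReal_ofNat, smul_eq_mul]
    ring
  · exact (Integrable.of_finite (μ := Measure.dirac true)).smul_measure (by simp)
  · exact (Integrable.of_finite (μ := Measure.dirac false)).smul_measure (by simp)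

variable {I : Type} {Θ : Type} {𝒢 : MeasurableSpace Θ} {mΘ : MeasurableSpace Θ}

/-- the law of the coins -/
noncomputable def coins (I : Type) : Measure (I → Bool) := Measure.infinitePi (fun _ : I => fair)

instance : IsProbabilityMeasure (coins I) := by
  unfold coins
  infer_instance

theorem coins_prod (A : Finset I) (f : I → Bool → ℝ) :
    ∫ c, ∏ p ∈ A, f p (c p) ∂(coins I) = ∏ p ∈ A, (f p true + f p false) / 2 := by
  have hind : iIndepFun (fun (p : I) (c : I → Bool) => f p (c p)) (coins I) :=
    iIndepFun_infinitePi (P := fun _ : I => fair) (X := f) (fun p => measurable_of_finite _)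
  have hind' := hind.precomp (g := ((↑) : A → I)) Subtype.val_injective
  have h1 := hind'.integral_fun_prod_eq_prod_integral (fun p => by
    exact ((measurable_of_finite (f p)).comp (measurable_pi_apply (p : I))).aestronglyMeasurable)
  have h2 : ∀ c : I → Bool, ∏ p ∈ A, f p (c p) = ∏ p : A, f p (c p) := fun c =>
    (Finset.prod_coe_sort A (fun p => f p (c p))).symm
  simp only [h2]
  refine h1.trans ?_
  rw [← Finset.prod_coe_sort A]
  refine Finset.prod_congr rfl fun p _ => ?_
  have h3 : MeasurePreserving (Function.eval (p : I)) (coins I) fair :=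
    measurePreserving_eval_infinitePi (fun _ : I => fair) (p : I)
  rw [← integral_fair]
  have h4 := integral_map (μ := coins I) h3.measurable.aemeasurable
    (f := f p) (measurable_of_finite (f p)).aestronglyMeasurable
  rw [h3.map_eq] at h4
  exact h4.symm

open Classical in
/-- the completed signs -/
noncomputable def xi (act : I → Set Θ) (s : I → Θ → ℝ) (p : I) (y : Θ × (I → Bool)) : ℝ :=
  if y.1 ∈ act p then s p y.1 else cs (y.2 p)

variable {act : I → Set Θ} {s : I → Θ → ℝ} {P : Measure Θ}

theorem xi_pm (hs : ∀ p x, s p x = 1 ∨ s p x = -1) (p : I) (y : Θ × (I → Bool)) :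
    xi act s p y = 1 ∨ xi act s p y = -1 := by
  unfold xi
  split_ifs
  exacts [hs _ _, cs_pm _]

theorem measurable_xi (hact : ∀ p, MeasurableSet (act p)) (ms : ∀ p, Measurable (s p)) (p : I) :
    Measurable (xi act s p) := by
  classical
  unfold xi
  refine Measurable.ite (measurable_fst (hact p)) ((ms p).comp measurable_fst) ?_
  exact (measurable_of_finite cs).comp ((measurable_pi_apply p).comp measurable_snd)

theorem mom_xi [IsProbabilityMeasure P] (hle : 𝒢 ≤ mΘ) (hact : ∀ p, MeasurableSet (act p))
    (ms : ∀ p, Measurable (s p)) (hs : ∀ p x, s p x = 1 ∨ s p x = -1)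
    (hK : ∀ A : Finset I, A.Nonempty → ∀ D, MeasurableSet[𝒢] D →
      ∫ x in D, ∏ p ∈ A, indicator (act p) (s p) x ∂P = 0) :
    Mom (𝒢.comap Prod.fst) (P.prod (coins I)) (xi act s) where
  prob := inferInstance
  le := by
    refine (MeasurableSpace.comap_mono hle).trans ?_
    exact (measurable_fst (α := Θ) (β := I → Bool)).comap_le
  meas := measurable_xi hact ms
  pm := xi_pm hs
  mom := by
    rintro A hA _ ⟨D, hD, rfl⟩
    have hDm : MeasurableSet D := hle D hD
    have hm : Measurable fun y : Θ × (I → Bool) => ∏ p ∈ A, xi act s p y :=
      Finset.measurable_prod _ fun p _ => measurable_xi hact ms p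
    have hb : ∀ y : Θ × (I → Bool), |∏ p ∈ A, xi act s p y| = 1 := by
      intro y
      rw [Finset.abs_prod]
      refine Finset.prod_eq_one fun p _ => ?_
      rcases xi_pm (act := act) hs p y with h | h <;> rw [h] <;> norm_num
    rw [← integral_indicator (measurable_fst hDm), integral_prod]
    · have e : ∀ x, ∫ c, indicator (Prod.fst ⁻¹' D)
          (fun y : Θ × (I → Bool) => ∏ p ∈ A, xi act s p y) (x, c) ∂(coins I) =
          indicator D (fun x => ∏ p ∈ A, indicator (act p) (s p) x) x := by
        intro x
        by_cases hx : x ∈ D
        · rw [indicator_of_mem hx]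
          have h1 : ∀ c : I → Bool, indicator (Prod.fst ⁻¹' D)
              (fun y : Θ × (I → Bool) => ∏ p ∈ A, xi act s p y) (x, c) =
              ∏ p ∈ A, xi act s p (x, c) := fun c =>
            indicator_of_mem (show (x, c) ∈ Prod.fst ⁻¹' D from hx) _
          simp only [h1]
          classical
          have h2 := coins_prod A (fun p b => if x ∈ act p then s p x else cs b)
          refine h2.trans (Finset.prod_congr rfl fun p _ => ?_)
          by_cases hp : x ∈ act p
          · rw [indicator_of_mem hp, if_pos hp, if_pos hp]
            ring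
          · rw [indicator_of_notMem hp, if_neg hp, if_neg hp]
            unfold cs
            simp
        · rw [indicator_of_notMem hx]
          have h1 : ∀ c : I → Bool, indicator (Prod.fst ⁻¹' D)
              (fun y : Θ × (I → Bool) => ∏ p ∈ A, xi act s p y) (x, c) = 0 := fun c =>
            indicator_of_notMem (show (x, c) ∉ Prod.fst ⁻¹' D from hx) _
          simp only [h1, integral_zero]
      simp only [e]
      rw [integral_indicator hDm]
      exact hK A hA D hD
    · refine (Integrable.of_bound hm.aestronglyMeasurable 1 (Eventually.of_forall fun y => ?_)).indicator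
        (measurable_fst hDm)
      rw [Real.norm_eq_abs, hb]

end Vale.Agent.P155.Ex795
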