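import Vale.Agent.P155.T211Q.Same

/-!
# P155, stage 2, signs of the limit: the lattice identity

The product of the increments of the height at finitely many points has mean zero (with any
swap-invariant weight), up to the event that two of the points lie in the same loop.
-/

namespace Vale.Agent.P155.Ex795

open Finset SW HT T211Q

variable {V : Finset Pt} {ω : Conf}

open Classical in
theorem ic_zero (hω : ω ∈ DD V) (k : ℕ) {f : Pt} (h : ¬ SameLev (k + 1) ω f f) :
    ic k ω f = 0 := by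
  unfold ic
  rw [K1.hk_succ_sub hω]
  apply Finset.sum_eq_zero
  intro A hA
  rw [Finset.mem_filter, mem_LF hω] at hA
  exact absurd ⟨A, hA.1, hA.2.1, hA.2.2, hA.2.2⟩ h

theorem abs_ic_le (hω : ω ∈ DD V) (k : ℕ) (f : Pt) : |(ic k ω f : ℝ)| ≤ 1 := by
  by_cases h : SameLev (k + 1) ω f f
  · have h1 := ic_same hω k h
    have h2 : (ic k ω f : ℝ) * ic k ω f = 1 := by exact_mod_cast h1
    have h3 : |(ic k ω f : ℝ)| * |(ic k ω f : ℝ)| = 1 := by rw [← abs_mul, h2, abs_one]
    nlinarith [abs_nonneg (ic k ω f : ℝ)]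
  · rw [ic_zero hω k h]
    simp

open Classical in
/-- swapping a loop of another level does not change the increment -/
theorem ic_swap_level (hω : ω ∈ DD V) {k k' : ℕ} (hk : k' ≠ k) (f f' : Pt) :
    ic k' (swapOn (SL (k + 1) ω f) ω) f' = ic k' ω f' := by
  have hω' := swap_mem hω (cl_SL (k + 1) ω f)
  unfold ic
  rw [K1.hk_succ_sub hω, K1.hk_succ_sub hω', LF_swap]
  simp only [level_swap, surr_swap]
  refine Finset.sum_congr rfl fun A hA => ?_
  rw [Finset.mem_filter, mem_LF hω] at hA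
  refine sign_swap_same ?_
  rw [Set.disjoint_left]
  rintro v hv ⟨B, hB1, hB2, hB3, hB4⟩
  by_cases hAB : A = B
  · subst hAB
    have := hA.2.1.symm.trans hB2
    omega
  · exact Set.disjoint_left.1 (L.loops_disjoint hω hA.1 hB1 hAB) hv hB4

/-- the event that some other point of the same level lies in the loop around the first point -/
def Coin {m : ℕ} (k : Fin (m + 1) → ℕ) (f : Fin (m + 1) → Pt) (ω : Conf) : Prop :=
  ∃ j, j ≠ 0 ∧ k j = k 0 ∧ SameLev (k 0 + 1) ω (f 0) (f j)

open Classical in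
theorem sum_zero {m : ℕ} (k : Fin (m + 1) → ℕ) (f : Fin (m + 1) → Pt) (g : Conf → ℝ)
    (hg : ∀ ω ∈ DD V, ∀ S, g (swapOn S ω) = g ω) :
    ∑ ω ∈ DD V, g ω * (∏ j, (ic (k j) ω (f j) : ℝ)) * (if Coin k f ω then 0 else 1) = 0 := by
  have hC : ∀ (S : Set Pt) (ω : Conf), Coin k f (swapOn S ω) ↔ Coin k f ω := by
    intro S ω
    unfold Coin
    simp only [sameLev_swap]
  refine Finset.sum_involution (fun ω _ => swapOn (SL (k 0 + 1) ω (f 0)) ω) ?_ ?_ ?_ ?_
  · intro ω hω
    simp only [hC]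
    by_cases h : Coin k f ω
    · rw [if_pos h, mul_zero, mul_zero, add_zero]
    · rw [if_neg h, hg ω hω, Fin.prod_univ_succ, Fin.prod_univ_succ, ic_swap_self hω]
      have e : ∀ j : Fin m, ic (k j.succ) (swapOn (SL (k 0 + 1) ω (f 0)) ω) (f j.succ) =
          ic (k j.succ) ω (f j.succ) := by
        intro j
        by_cases hk : k j.succ = k 0
        · rw [hk]
          refine ic_swap_other hω (k 0) fun hs => h ⟨j.succ, Fin.succ_ne_zero j, hk, hs⟩
        · exact ic_swap_level hω hk _ _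
      simp only [e]
      push_cast
      ring
  · intro ω hω hne heq
    apply hne
    have e := ic_swap_self hω (k 0) (f 0)
    rw [heq] at e
    have e0 : ic (k 0) ω (f 0) = 0 := by omega
    rw [Fin.prod_univ_succ, e0]
    simp
  · intro ω hω
    exact swap_mem hω (cl_SL (k 0 + 1) ω (f 0))
  · intro ω hω
    rw [SL_swap, swapOn_swapOn]

open Classical in
/-- **the lattice identity** -/
theorem ex_prod_le {m : ℕ} (k : Fin (m + 1) → ℕ) (f : Fin (m + 1) → Pt) (g : Conf → ℝ)
    (hg : ∀ ω ∈ DD V, ∀ S, g (swapOn S ω) = g ω) :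
    |Ex V (fun ω => g ω * ∏ j, (ic (k j) ω (f j) : ℝ))| ≤
      Ex V (fun ω => |g ω| * (if Coin k f ω then 1 else 0)) := by
  have h0 := sum_zero (V := V) k f g hg
  have e : ∑ ω ∈ DD V, g ω * (∏ j, (ic (k j) ω (f j) : ℝ)) =
      ∑ ω ∈ DD V, g ω * (∏ j, (ic (k j) ω (f j) : ℝ)) * (if Coin k f ω then 1 else 0) := by
    rw [← sub_eq_zero, ← Finset.sum_sub_distrib]
    refine (Finset.sum_congr rfl fun ω _ => ?_).trans h0
    split_ifs <;> ring
  unfold Ex
  rw [smul_eq_mul, smul_eq_mul, e, abs_mul, abs_of_nonneg (by positivity : (0 : ℝ) ≤ ((DD V).card : ℝ)⁻¹)]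
  refine mul_le_mul_of_nonneg_left ((Finset.abs_sum_le_sum_abs _ _).trans ?_) (by positivity)
  refine Finset.sum_le_sum fun ω hω => ?_
  rw [abs_mul, abs_mul]
  have h1 : |∏ j, (ic (k j) ω (f j) : ℝ)| ≤ 1 := by
    rw [Finset.abs_prod]
    exact Finset.prod_le_one (fun _ _ => abs_nonneg _) fun j _ => abs_ic_le hω _ _
  split_ifs
  · rw [abs_one, mul_one, mul_one]
    exact mul_le_of_le_one_right (abs_nonneg _) h1
  · simp

end Vale.Agent.P155.Ex795
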