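import Vale.Agent.P155.Ex795.Sg

/-!
# P155, stage 2, signs of the limit: the test function and its expectation
-/

namespace Vale.Agent.P155.Ex795

open Metric TopologicalSpace Topology MeasureTheory Filter Vale.Agent.P155 T211Q

/-- **SAMEP**: two points at distance `≥ s` from the gasket of level `k + 1`, in the same loop of
level `k + 1`, are not separated by a small bottleneck. (Consequence of the pinch estimate.) -/
def SAMEP (Ω : Set ℂ) (S : TempApprox Ω) : Prop :=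
  ∀ (k : ℕ) {z z' : ℂ}, z ∈ Ω → z' ∈ Ω → ∀ {s ε : ℝ}, 0 < s → 0 < ε →
    ∃ r > 0, ∀ᶠ n in atTop, Pr (S.T n).V (fun ω =>
      s ≤ infDist z (gasket (S.δ n) (S.a n) (S.T n) (k + 1) ω) ∧
      s ≤ infDist z' (gasket (S.δ n) (S.a n) (S.T n) (k + 1) ω) ∧
      bott z z' (gasket (S.δ n) (S.a n) (S.T n) (k + 1) ω) ≤ r ∧
      SameLev (k + 1) ω (K.cell (S.δ n) (S.a n) z) (K.cell (S.δ n) (S.a n) z')) < ε

variable {m N : ℕ}

/-- the data of a product of signs: levels `k j + 1` and points `z j` -/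
structure Dat (m N : ℕ) where
  k : Fin (m + 1) → ℕ
  hk : ∀ j, k j + 1 < N
  z : Fin (m + 1) → ℂ

namespace Dat

variable (D : Dat m N)

def lv (j : Fin (m + 1)) : Fin N := ⟨D.k j + 1, D.hk j⟩
def lv0 (j : Fin (m + 1)) : Fin N := ⟨D.k j, (Nat.lt_succ_self _).trans (D.hk j)⟩

/-- cut-off near the gaskets -/
noncomputable def W1 (s : ℝ) (g : Fin N → NonemptyCompacts ℂ) : ℝ :=
  ∏ j, c01 (2 * infDist (D.z j) (g (D.lv j)) / s - 1)

/-- cut-off: the first point is not in the hole of another point -/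
noncomputable def W2 (r : ℝ) (g : Fin N → NonemptyCompacts ℂ) : ℝ :=
  ∏ j, (if j ≠ 0 ∧ D.k j = D.k 0 then c01 (2 - bott (D.z 0) (D.z j) (g (D.lv 0)) / r) else 1)

noncomputable def FA (F : (Fin N → NonemptyCompacts ℂ) → ℝ) (r s : ℝ)
    (p : (Fin N → NonemptyCompacts ℂ) × (Fin N → Fin (m + 1) → ℝ)) : ℝ :=
  F p.1 * (D.W1 s p.1 * D.W2 r p.1) * ∏ j, c11 (p.2 (D.lv j) j - p.2 (D.lv0 j) j)

theorem continuous_W1 (s : ℝ) : Continuous (D.W1 s) := by
  unfold W1
  refine continuous_finsetProd _ fun j _ => continuous_c01.comp ?_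
  exact ((continuous_const.mul ((continuous_infDist (D.z j)).comp
    (continuous_apply (D.lv j)))).div_const s).sub continuous_const

theorem continuous_W2 (r : ℝ) : Continuous (D.W2 r) := by
  unfold W2
  refine continuous_finsetProd _ fun j _ => ?_
  by_cases h : j ≠ 0 ∧ D.k j = D.k 0
  · simp only [if_pos h]
    exact continuous_c01.comp (continuous_const.sub
      (((continuous_bott (D.z 0) (D.z j)).comp (continuous_apply (D.lv 0))).div_const r))
  · simp only [if_neg h]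
    exact continuous_const

theorem continuous_FA {F : (Fin N → NonemptyCompacts ℂ) → ℝ} (hF : Continuous F) (r s : ℝ) :
    Continuous (D.FA F r s) := by
  unfold FA
  refine ((hF.comp continuous_fst).mul (((D.continuous_W1 s).comp continuous_fst).mul
    ((D.continuous_W2 r).comp continuous_fst))).mul ?_
  refine continuous_finsetProd _ fun j _ => continuous_c11.comp ?_
  fun_prop

theorem W1_nonneg (s : ℝ) (g) : 0 ≤ D.W1 s g := Finset.prod_nonneg fun _ _ => c01_nonneg _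

theorem W1_le (s : ℝ) (g) : D.W1 s g ≤ 1 :=
  Finset.prod_le_one (fun _ _ => c01_nonneg _) fun _ _ => c01_le _

theorem W2_nonneg (r : ℝ) (g) : 0 ≤ D.W2 r g := by
  refine Finset.prod_nonneg fun _ _ => ?_
  split_ifs
  exacts [c01_nonneg _, zero_le_one]

theorem W2_le (r : ℝ) (g) : D.W2 r g ≤ 1 := by
  refine Finset.prod_le_one (fun _ _ => ?_) fun _ _ => ?_
  · split_ifs
    exacts [c01_nonneg _, zero_le_one]
  · split_ifs
    exacts [c01_le _, le_rfl]

theorem abs_W_le (r s : ℝ) (g) : |D.W1 s g * D.W2 r g| ≤ 1 := by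
  rw [abs_of_nonneg (mul_nonneg (D.W1_nonneg s g) (D.W2_nonneg r g))]
  exact mul_le_one₀ (D.W1_le s g) (D.W2_nonneg r g) (D.W2_le r g)

theorem abs_FA_le {F : (Fin N → NonemptyCompacts ℂ) → ℝ} {C : ℝ} (hC : ∀ g, |F g| ≤ C) (r s : ℝ)
    (p) : |D.FA F r s p| ≤ C := by
  have hC0 : 0 ≤ C := (abs_nonneg _).trans (hC p.1)
  unfold FA
  rw [abs_mul, abs_mul, Finset.abs_prod]
  calc |F p.1| * |D.W1 s p.1 * D.W2 r p.1| * ∏ j, |c11 (p.2 (D.lv j) j - p.2 (D.lv0 j) j)|
      ≤ C * 1 * 1 := by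
        refine mul_le_mul (mul_le_mul (hC _) (D.abs_W_le _ _ _) (abs_nonneg _) hC0)
          (Finset.prod_le_one (fun _ _ => abs_nonneg _) fun _ _ => abs_c11_le _)
          (Finset.prod_nonneg fun _ _ => abs_nonneg _) (by positivity)
    _ = C := by ring

theorem W1_ne {s : ℝ} (hs : 0 < s) {g : Fin N → NonemptyCompacts ℂ} (h : D.W1 s g ≠ 0) (j) :
    s / 2 < infDist (D.z j) (g (D.lv j)) := by
  by_contra h1
  apply h
  unfold W1
  refine Finset.prod_eq_zero (Finset.mem_univ j) (c01_zero ?_)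
  have : infDist (D.z j) (g (D.lv j) : Set ℂ) / s ≤ 1 / 2 := by rw [div_le_iff₀ hs]; linarith
  rw [mul_div_assoc]
  linarith

theorem W2_ne {r : ℝ} (hr : 0 < r) {g : Fin N → NonemptyCompacts ℂ} (h : D.W2 r g ≠ 0) {j}
    (hj : j ≠ 0 ∧ D.k j = D.k 0) : bott (D.z 0) (D.z j) (g (D.lv 0)) < 2 * r := by
  by_contra h1
  apply h
  unfold W2
  refine Finset.prod_eq_zero (Finset.mem_univ j) ?_
  rw [if_pos hj]
  have : 2 ≤ bott (D.z 0) (D.z j) (g (D.lv 0)) / r := by rw [le_div_iff₀ hr]; linarith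
  exact c01_zero (by linarith)

/-- `FA` on the lattice -/
theorem FA_lat {δ : ℝ} (hδ : 0 < δ) {a : ℂ} {T : Temp} {ω : Conf} (hω : ω ∈ DD T.V)
    (F : (Fin N → NonemptyCompacts ℂ) → ℝ) {r s : ℝ} (hs : 0 < s)
    (hz : ∀ j, closedBall (D.z j) (s / 2) ⊆ interior (region δ a T.faceSet))
    {χ : Fin (m + 1) → ℂ → ℝ} (h0 : ∀ j, IsTest (ball (D.z j) (s / 2)) (χ j))
    (h1 : ∀ j, ∫ w, χ j w = 1) :
    D.FA F r s (fun l => toNC (gasket δ a T l ω), fun l i => heightInt δ a l ω (χ i)) =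
      (F (fun l => toNC (gasket δ a T l ω)) * (D.W1 s (fun l => toNC (gasket δ a T l ω)) *
        D.W2 r (fun l => toNC (gasket δ a T l ω)))) *
        ∏ j, (ic (D.k j) ω (K.cell δ a (D.z j)) : ℝ) := by
  unfold FA
  simp only
  by_cases hW : D.W1 s (fun l => toNC (gasket δ a T l ω)) = 0
  · rw [hW]
    ring
  · congr 1
    refine Finset.prod_congr rfl fun j _ => ?_
    have e := D.W1_ne hs hW j
    simp only [lv] at e
    rw [KConn.coe_toNC_gasket hδ a T _ hω] at e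
    have b := ball_sub_Ok (hz j) e
    have o : ∀ w, w ∉ closedBall (D.z j) (s / 2) → χ j w = 0 := fun w hw =>
      K1.test_zero_off (h0 j) fun h => hw (ball_subset_closedBall h)
    simp only [lv, lv0]
    rw [heightInt_inc hδ hω (by positivity) b (K1.test_integrable (h0 j)) o, h1, mul_one,
      c11_pm (ic_pm hδ hω (b (mem_closedBall_self (by positivity))))]

open Classical in
/-- the probability of a coincidence of the first point with the `j`-th point -/
noncomputable def cp (T : Temp) (δ : ℝ) (a : ℂ) (r s : ℝ) (j : Fin (m + 1)) : ℝ :=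
  if j ≠ 0 ∧ D.k j = D.k 0 then Pr T.V (fun ω =>
      s / 2 ≤ infDist (D.z 0) (gasket δ a T (D.k 0 + 1) ω) ∧
      s / 2 ≤ infDist (D.z j) (gasket δ a T (D.k 0 + 1) ω) ∧
      bott (D.z 0) (D.z j) (gasket δ a T (D.k 0 + 1) ω) ≤ 2 * r ∧
      SameLev (D.k 0 + 1) ω (K.cell δ a (D.z 0)) (K.cell δ a (D.z j))) else 0

theorem ex_le {δ : ℝ} (hδ : 0 < δ) {a : ℂ} {T : Temp}
    {F : (Fin N → NonemptyCompacts ℂ) → ℝ} {C : ℝ} (hC : ∀ g, |F g| ≤ C) {r s : ℝ} (hr : 0 < r)
    (hs : 0 < s)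
    (hz : ∀ j, closedBall (D.z j) (s / 2) ⊆ interior (region δ a T.faceSet))
    {χ : Fin (m + 1) → ℂ → ℝ} (h0 : ∀ j, IsTest (ball (D.z j) (s / 2)) (χ j))
    (h1 : ∀ j, ∫ w, χ j w = 1) :
    |Ex T.V (fun ω => D.FA F r s (fun l => toNC (gasket δ a T l ω),
      fun l i => heightInt δ a l ω (χ i)))| ≤ C * ∑ j, D.cp T δ a r s j := by
  classical
  have e1 : Ex T.V (fun ω => D.FA F r s (fun l => toNC (gasket δ a T l ω),
      fun l i => heightInt δ a l ω (χ i))) = Ex T.V (fun ω =>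
      (F (fun l => toNC (gasket δ a T l ω)) * (D.W1 s (fun l => toNC (gasket δ a T l ω)) *
        D.W2 r (fun l => toNC (gasket δ a T l ω)))) *
        ∏ j, (ic (D.k j) ω (K.cell δ a (D.z j)) : ℝ)) := by
    unfold Ex
    congr 1
    exact Finset.sum_congr rfl fun ω hω => D.FA_lat hδ hω F hs hz h0 h1
  rw [e1]
  refine (ex_prod_le D.k (fun j => K.cell δ a (D.z j)) (fun ω =>
    F (fun l => toNC (gasket δ a T l ω)) * (D.W1 s (fun l => toNC (gasket δ a T l ω)) *
        D.W2 r (fun l => toNC (gasket δ a T l ω)))) (fun ω _ A => by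
      simp only [gasket_swap])).trans ?_
  have hC0 : 0 ≤ C := (abs_nonneg _).trans (hC (fun _ => ⟨⟨{0}, isCompact_singleton⟩, by simp⟩))
  unfold Ex
  simp only [smul_eq_mul]
  have e2 : C * ∑ j, D.cp T δ a r s j = ((DD T.V).card : ℝ)⁻¹ * ∑ ω ∈ DD T.V, C *
      ∑ j, (if (j ≠ 0 ∧ D.k j = D.k 0) ∧ (s / 2 ≤ infDist (D.z 0) (gasket δ a T (D.k 0 + 1) ω) ∧
      s / 2 ≤ infDist (D.z j) (gasket δ a T (D.k 0 + 1) ω) ∧
      bott (D.z 0) (D.z j) (gasket δ a T (D.k 0 + 1) ω) ≤ 2 * r ∧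
      SameLev (D.k 0 + 1) ω (K.cell δ a (D.z 0)) (K.cell δ a (D.z j))) then (1 : ℝ) else 0) := by
    rw [← Finset.mul_sum, Finset.sum_comm, mul_left_comm]
    congr 1
    rw [Finset.mul_sum]
    refine Finset.sum_congr rfl fun j _ => ?_
    unfold cp
    by_cases hj : j ≠ 0 ∧ D.k j = D.k 0
    · rw [if_pos hj]
      unfold Pr Ex
      rw [smul_eq_mul]
      congr 1
      refine Finset.sum_congr rfl fun ω _ => ?_
      simp only [Set.indicator_apply, Set.mem_ofPred_eq, hj, ne_eq, not_false_eq_true, true_and,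
        and_self]
    · rw [if_neg hj]
      symm
      rw [Finset.sum_eq_zero, mul_zero]
      intro ω _
      rw [if_neg (fun h => hj h.1)]
  rw [e2]
  refine mul_le_mul_of_nonneg_left (Finset.sum_le_sum fun ω hω => ?_) (by positivity)
  by_cases hc : Coin D.k (fun j => K.cell δ a (D.z j)) ω
  · rw [if_pos hc, mul_one]
    by_cases hW : D.W1 s (fun l => toNC (gasket δ a T l ω)) *
        D.W2 r (fun l => toNC (gasket δ a T l ω)) = 0
    · rw [hW, mul_zero, abs_zero]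
      refine mul_nonneg hC0 (Finset.sum_nonneg fun _ _ => ?_)
      split_ifs <;> norm_num
    · obtain ⟨j, hj0, hjk, hsame⟩ := hc
      have w1 := left_ne_zero_of_mul hW
      have w2 := right_ne_zero_of_mul hW
      have a1 := D.W1_ne hs w1 0
      have a2 := D.W1_ne hs w1 j
      have a3 := D.W2_ne hr w2 ⟨hj0, hjk⟩
      simp only [lv] at a1 a2 a3
      rw [KConn.coe_toNC_gasket hδ a T _ hω] at a1 a2 a3
      rw [hjk] at a2
      have hone : (1 : ℝ) ≤ ∑ j, (if (j ≠ 0 ∧ D.k j = D.k 0) ∧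
          (s / 2 ≤ infDist (D.z 0) (gasket δ a T (D.k 0 + 1) ω) ∧
          s / 2 ≤ infDist (D.z j) (gasket δ a T (D.k 0 + 1) ω) ∧
          bott (D.z 0) (D.z j) (gasket δ a T (D.k 0 + 1) ω) ≤ 2 * r ∧
          SameLev (D.k 0 + 1) ω (K.cell δ a (D.z 0)) (K.cell δ a (D.z j))) then (1 : ℝ) else 0) := by
        have := Finset.single_le_sum (s := (Finset.univ : Finset (Fin (m + 1))))
          (f := fun j => if (j ≠ 0 ∧ D.k j = D.k 0) ∧
          (s / 2 ≤ infDist (D.z 0) (gasket δ a T (D.k 0 + 1) ω) ∧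
          s / 2 ≤ infDist (D.z j) (gasket δ a T (D.k 0 + 1) ω) ∧
          bott (D.z 0) (D.z j) (gasket δ a T (D.k 0 + 1) ω) ≤ 2 * r ∧
          SameLev (D.k 0 + 1) ω (K.cell δ a (D.z 0)) (K.cell δ a (D.z j))) then (1 : ℝ) else 0)
          (fun _ _ => by split_ifs <;> norm_num) (Finset.mem_univ j)
        beta_reduce at this
        rwa [if_pos ⟨⟨hj0, hjk⟩, a1.le, a2.le, a3.le, hsame⟩] at this
      rw [abs_mul]
      calc |F (fun l => toNC (gasket δ a T l ω))| * |D.W1 s (fun l => toNC (gasket δ a T l ω)) *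
            D.W2 r (fun l => toNC (gasket δ a T l ω))| ≤ C * 1 :=
            mul_le_mul (hC _) (D.abs_W_le _ _ _) (abs_nonneg _) hC0
        _ ≤ _ := mul_le_mul_of_nonneg_left hone hC0
  · rw [if_neg hc, mul_zero]
    refine mul_nonneg hC0 (Finset.sum_nonneg fun _ _ => ?_)
    split_ifs <;> norm_num

end Dat

end Vale.Agent.P155.Ex795
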