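import Mathlib

/-!
# P155, stage 2, signs of the limit: independence from moments
-/

namespace Vale.Agent.P155.Ex795

open TopologicalSpace Topology MeasureTheory ProbabilityTheory Filter Set

variable {Θ : Type*} {𝒢 : MeasurableSpace Θ} {mΘ : MeasurableSpace Θ} {P : Measure Θ} {I : Type*}
    {ξ : I → Θ → ℝ}

open Classical in
/-- mean of the indicator of `S` under a fair sign -/
noncomputable def av (S : Set ℝ) : ℝ :=
  (indicator S (fun _ => (1 : ℝ)) 1 + indicator S (fun _ => (1 : ℝ)) (-1)) / 2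

noncomputable def bv (S : Set ℝ) : ℝ :=
  (indicator S (fun _ => (1 : ℝ)) 1 - indicator S (fun _ => (1 : ℝ)) (-1)) / 2

theorem ind_pm (S : Set ℝ) {t : ℝ} (ht : t = 1 ∨ t = -1) :
    indicator S (fun _ => (1 : ℝ)) t = av S + bv S * t := by
  unfold av bv
  rcases ht with rfl | rfl <;> ring

theorem av_nonneg (S : Set ℝ) : 0 ≤ av S := by
  unfold av
  have h : ∀ t : ℝ, 0 ≤ indicator S (fun _ => (1 : ℝ)) t := fun t =>
    indicator_nonneg (fun _ _ => zero_le_one) t
  have := h 1
  have := h (-1)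
  positivity

/-- the mixed moments of the signs vanish on the events of `𝒢` -/
structure Mom (𝒢 : MeasurableSpace Θ) {mΘ : MeasurableSpace Θ} (P : Measure Θ) (ξ : I → Θ → ℝ) :
    Prop where
  prob : IsProbabilityMeasure P
  le : 𝒢 ≤ mΘ
  meas : ∀ p, Measurable (ξ p)
  pm : ∀ p x, ξ p x = 1 ∨ ξ p x = -1
  mom : ∀ A : Finset I, A.Nonempty → ∀ D, MeasurableSet[𝒢] D → ∫ x in D, ∏ p ∈ A, ξ p x ∂P = 0

theorem Mom.abs_prod (h : Mom 𝒢 P ξ) (A : Finset I) (x : Θ) : |∏ p ∈ A, ξ p x| = 1 := by
  rw [Finset.abs_prod]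
  refine Finset.prod_eq_one fun p _ => ?_
  rcases h.pm p x with e | e <;> rw [e] <;> norm_num

theorem Mom.integrable_prod (h : Mom 𝒢 P ξ) (A : Finset I) :
    Integrable (fun x => ∏ p ∈ A, ξ p x) P := by
  have := h.prob
  refine Integrable.of_bound (Finset.measurable_prod _ fun p _ => h.meas p).aestronglyMeasurable 1
    (Eventually.of_forall fun x => ?_)
  rw [Real.norm_eq_abs, h.abs_prod]

theorem Mom.real (h : Mom 𝒢 P ξ) (A : Finset I) {S : I → Set ℝ} (hS : ∀ p ∈ A, MeasurableSet (S p))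
    {D : Set Θ} (hD : MeasurableSet[𝒢] D) :
    P.real (D ∩ ⋂ p ∈ A, ξ p ⁻¹' S p) = P.real D * ∏ p ∈ A, av (S p) := by
  classical
  have := h.prob
  have hDm : MeasurableSet D := h.le D hD
  have hSm : MeasurableSet (⋂ p ∈ A, ξ p ⁻¹' S p) :=
    MeasurableSet.biInter A.countable_toSet fun p hp => h.meas p (hS p hp)
  have e1 : P.real (D ∩ ⋂ p ∈ A, ξ p ⁻¹' S p) =
      ∫ x in D, ∏ p ∈ A, (av (S p) + bv (S p) * ξ p x) ∂P := by
    rw [inter_comm, ← measureReal_restrict_apply hSm, ← integral_indicator_one hSm]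
    refine integral_congr_ae (Eventually.of_forall fun x => ?_)
    beta_reduce
    by_cases hx : x ∈ ⋂ p ∈ A, ξ p ⁻¹' S p
    · rw [indicator_of_mem hx, Pi.one_apply]
      symm
      refine Finset.prod_eq_one fun p hp => ?_
      rw [← ind_pm (S p) (h.pm p x)]
      rw [mem_iInter₂] at hx
      have h5 : ξ p x ∈ S p := hx p hp
      exact indicator_of_mem h5 (fun _ => (1 : ℝ))
    · rw [indicator_of_notMem hx]
      rw [mem_iInter₂] at hx
      push Not at hx
      obtain ⟨p, hp, hxp⟩ := hx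
      symm
      refine Finset.prod_eq_zero hp ?_
      rw [← ind_pm (S p) (h.pm p x)]
      have h5 : ξ p x ∉ S p := hxp
      exact indicator_of_notMem h5 (fun _ => (1 : ℝ))
  have e2 : ∀ x, ∏ p ∈ A, (av (S p) + bv (S p) * ξ p x) =
      ∑ t ∈ A.powerset, ((∏ p ∈ t, av (S p)) * ∏ p ∈ A \ t, bv (S p)) * ∏ p ∈ A \ t, ξ p x := by
    intro x
    rw [Finset.prod_add]
    refine Finset.sum_congr rfl fun t _ => ?_
    rw [Finset.prod_mul_distrib]
    ring
  rw [e1]
  simp only [e2]
  rw [integral_finsetSum _ fun t _ => ((h.integrable_prod (A \ t)).integrableOn.const_mul _)]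
  rw [Finset.sum_eq_single A]
  · rw [integral_const_mul, Finset.sdiff_self]
    simp only [Finset.prod_empty, mul_one, integral_const, smul_eq_mul]
    rw [measureReal_restrict_apply MeasurableSet.univ, univ_inter]
    ring
  · intro t ht hne
    rw [Finset.mem_powerset] at ht
    rw [integral_const_mul, h.mom _ ?_ D hD, mul_zero]
    rw [Finset.sdiff_nonempty]
    intro hAt
    exact hne (Finset.Subset.antisymm ht hAt)
  · intro hA
    exact absurd (Finset.mem_powerset_self A) hA

theorem Mom.single (h : Mom 𝒢 P ξ) (p : I) {S : Set ℝ} (hS : MeasurableSet S) :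
    P.real (ξ p ⁻¹' S) = av S := by
  have := h.prob
  have h1 := h.real {p} (S := fun _ => S) (fun _ _ => hS) (D := univ)
    (@MeasurableSet.univ _ 𝒢)
  simp only [Finset.mem_singleton, iInter_iInter_eq_left, univ_inter, Finset.prod_singleton] at h1
  rw [h1]
  simp

theorem Mom.half (h : Mom 𝒢 P ξ) (p : I) : P {x | ξ p x = 1} = 1 / 2 := by
  have := h.prob
  have h1 := h.single p (measurableSet_singleton (1 : ℝ))
  have h2 : av {1} = 1 / 2 := by
    unfold av
    rw [indicator_of_mem (mem_singleton _), indicator_of_notMem]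
    · norm_num
    · intro h
      rw [mem_singleton_iff] at h
      norm_num at h
  rw [h2] at h1
  have h3 : P {x | ξ p x = 1} = P (ξ p ⁻¹' {1}) := rfl
  rw [h3, ← ENNReal.toReal_eq_toReal_iff' (measure_ne_top _ _) (by norm_num)]
  rw [show (P (ξ p ⁻¹' {1})).toReal = 1 / 2 from h1]
  simp

theorem Mom.iind (h : Mom 𝒢 P ξ) : iIndepFun ξ P := by
  have := h.prob
  rw [iIndepFun_iff_measure_inter_preimage_eq_mul]
  intro A S hS
  rw [← ENNReal.toReal_eq_toReal_iff' (measure_ne_top P _)
    (ENNReal.prod_ne_top fun p _ => measure_ne_top P _), ENNReal.toReal_prod]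
  have h1 := h.real A hS (D := univ) (@MeasurableSet.univ _ 𝒢)
  rw [univ_inter, probReal_univ, one_mul] at h1
  refine h1.trans (Finset.prod_congr rfl fun p hp => ?_)
  exact (h.single p (hS p hp)).symm

theorem Mom.ind (h : Mom 𝒢 P ξ) :
    Indep (⨆ p : I, MeasurableSpace.comap (ξ p) inferInstance) 𝒢 P := by
  have := h.prob
  have hm : ∀ p, MeasurableSpace.comap (ξ p) inferInstance ≤ mΘ := fun p => (h.meas p).comap_le
  have hgen : (⨆ p : I, MeasurableSpace.comap (ξ p) inferInstance) =
      MeasurableSpace.generateFrom (piiUnionInter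
        (fun p => {s | MeasurableSet[MeasurableSpace.comap (ξ p) inferInstance] s}) univ) := by
    rw [generateFrom_piiUnionInter_measurableSet
      (fun p => MeasurableSpace.comap (ξ p) inferInstance) univ]
    simp
  refine IndepSets.indep (iSup_le hm) h.le ?_ (@MeasurableSpace.isPiSystem_measurableSet _ 𝒢) hgen
    (@MeasurableSpace.generateFrom_measurableSet _ 𝒢).symm ?_
  · exact isPiSystem_piiUnionInter _
      (fun p => @MeasurableSpace.isPiSystem_measurableSet _ (MeasurableSpace.comap (ξ p) inferInstance))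
      univ
  · rw [IndepSets_iff]
    rintro _ D ⟨A, -, f, hf, rfl⟩ hD
    have hfS : ∀ p, ∃ S : Set ℝ, MeasurableSet S ∧ (p ∈ A → f p = ξ p ⁻¹' S) := by
      intro p
      by_cases hp : p ∈ A
      · obtain ⟨S, hS, h1⟩ := hf p hp
        exact ⟨S, hS, fun _ => h1.symm⟩
      · exact ⟨∅, MeasurableSet.empty, fun h => absurd h hp⟩
    choose S hS hfe using hfS
    have e : ⋂ p ∈ A, f p = ⋂ p ∈ A, ξ p ⁻¹' S p := by
      refine iInter₂_congr fun p hp => hfe p hp
    rw [e, ← ENNReal.toReal_eq_toReal_iff' (measure_ne_top _ _)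
      (ENNReal.mul_ne_top (measure_ne_top _ _) (measure_ne_top _ _)), ENNReal.toReal_mul, inter_comm]
    have h1 := h.real A (fun p _ => hS p) hD
    have h2 := h.real A (fun p _ => hS p) (D := univ) (@MeasurableSet.univ _ 𝒢)
    rw [univ_inter, probReal_univ, one_mul] at h2
    change P.real _ = P.real _ * P.real _
    rw [h1, h2, mul_comm]

end Vale.Agent.P155.Ex795
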