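import Vale.Agent.P155.Ex795.FA
import Vale.Agent.P155.E.Prob

/-!
# P155, stage 2, signs of the limit: the limit of the lattice inequality
-/

namespace Vale.Agent.P155.Ex795

open Metric TopologicalSpace Topology MeasureTheory Filter Vale.Agent.P155 T211Q

/-- convergence of gaskets and heights to the structure `(P, G, H)` -/
def ConvTo (Ω : Set ℂ) (S : TempApprox Ω) {Θ : Type} [MeasurableSpace Θ] (P : Measure Θ)
    (G : ℕ → Θ → NonemptyCompacts ℂ) (H : ℕ → Θ → (ℂ → ℝ) → ℝ) : Prop :=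
  ∀ (k m : ℕ) (χ : Fin m → ℂ → ℝ), (∀ i, IsTest Ω (χ i)) →
  ∀ F : (Fin k → NonemptyCompacts ℂ) × (Fin k → Fin m → ℝ) → ℝ, Continuous F →
    (∃ C, ∀ y, |F y| ≤ C) →
    Tendsto (fun n =>
      Ex (S.T n).V (fun ω => F (fun l => toNC (gasket (S.δ n) (S.a n) (S.T n) l ω),
        fun l i => heightInt (S.δ n) (S.a n) l ω (χ i)))) atTop
      (𝓝 (∫ x, F (fun l => G l x, fun l i => H l x (χ i)) ∂P))

variable {Θ : Type} [MeasurableSpace Θ] {P : Measure Θ} {Ω : Set ℂ}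
    {G : ℕ → Θ → NonemptyCompacts ℂ} {H : ℕ → Θ → (ℂ → ℝ) → ℝ} {m N : ℕ}

theorem lim_le {S : TempApprox Ω} (hconv : ConvTo Ω S P G H)
    (hS : SAMEP Ω S) (D : Dat m N) (hz : ∀ j, D.z j ∈ Ω)
    {F : (Fin N → NonemptyCompacts ℂ) → ℝ} (hF : Continuous F) {C : ℝ} (hC : ∀ g, |F g| ≤ C)
    {s : ℝ} (hs : 0 < s) (hsub : ∀ j, closedBall (D.z j) (s / 2) ⊆ Ω)
    {χ : Fin (m + 1) → ℂ → ℝ} (h0 : ∀ j, IsTest (ball (D.z j) (s / 2)) (χ j))
    (h1 : ∀ j, ∫ w, χ j w = 1) {ε : ℝ} (hε : 0 < ε) :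
    ∃ r0 > 0, ∀ r, 0 < r → r ≤ r0 →
      |∫ x, D.FA F r s (fun l => G l x, fun l i => H l x (χ i)) ∂P| ≤ C * ((m + 1) * ε) := by
  have hC0 : 0 ≤ C := (abs_nonneg _).trans (hC (fun _ => ⟨⟨{0}, isCompact_singleton⟩, by simp⟩))
  choose r hr hev using fun j => hS (D.k 0) (hz 0) (hz j) (half_pos hs) hε
  have hne : (Finset.univ : Finset (Fin (m + 1))).Nonempty := ⟨0, Finset.mem_univ _⟩
  refine ⟨Finset.univ.inf' hne r / 2, ?_, ?_⟩
  · apply half_pos
    rw [Finset.lt_inf'_iff]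
    exact fun j _ => hr j
  · intro ρ hρ hρr
    have hρj : ∀ j, 2 * ρ ≤ r j := by
      intro j
      have := Finset.inf'_le r (Finset.mem_univ j)
      linarith
    have hlim := hconv N (m + 1) χ (fun j => K1.IsTest_mono
      (ball_subset_closedBall.trans (hsub j)) (h0 j)) (D.FA F ρ s) (D.continuous_FA hF ρ s)
      ⟨C, D.abs_FA_le hC ρ s⟩
    refine le_of_tendsto hlim.abs ?_
    have hin : ∀ j, ∀ᶠ n in atTop, closedBall (D.z j) (s / 2) ⊆
        interior (region (S.δ n) (S.a n) (S.T n).faceSet) := fun j =>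
      S.cara₁ _ (hsub j) (isCompact_closedBall _ _)
    filter_upwards [eventually_all.2 hev, eventually_all.2 hin] with n h2 h3
    refine (D.ex_le (S.pos n) hC hρ hs h3 h0 h1).trans ?_
    refine mul_le_mul_of_nonneg_left ?_ hC0
    have h4 : ∀ j, D.cp (S.T n) (S.δ n) (S.a n) ρ s j ≤ ε := by
      intro j
      unfold Dat.cp
      split_ifs with hj
      · refine (E.Pr_mono fun ω _ hh => ?_).trans (h2 j).le
        exact ⟨hh.1, hh.2.1, hh.2.2.1.trans (hρj j), hh.2.2.2⟩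
      · exact hε.le
    refine (Finset.sum_le_sum fun j _ => h4 j).trans ?_
    rw [Finset.sum_const, Finset.card_univ, Fintype.card_fin, nsmul_eq_mul]
    push_cast
    exact le_rfl

/-- `FA` in the limit -/
theorem FA_limit (ho : IsOpen Ω) (D : Dat m N) {x : Θ}
    (t : Typ Ω (fun k => G k x) (fun k => H k x)) (hz : ∀ j, D.z j ∈ Ω)
    (F : (Fin N → NonemptyCompacts ℂ) → ℝ) (r : ℝ) {s : ℝ} (hs : 0 < s)
    {χ : Fin (m + 1) → ℂ → ℝ} (h0 : ∀ j, IsTest (ball (D.z j) (s / 2)) (χ j))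
    (h1 : ∀ j, ∫ w, χ j w = 1) :
    D.FA F r s (fun l => G l x, fun l i => H l x (χ i)) =
      F (fun l => G l x) * (D.W1 s (fun l => G l x) * D.W2 r (fun l => G l x)) *
        ∏ j, sg Ω G H (D.k j) (D.z j) x := by
  unfold Dat.FA
  simp only
  by_cases hW : D.W1 s (fun l => G l x) = 0
  · rw [hW]
    ring
  · congr 1
    refine Finset.prod_congr rfl fun j _ => ?_
    have e := D.W1_ne hs hW j
    simp only [Dat.lv] at e
    have hb := ball_sub ho (t.fr (D.k j + 1)) (hz j) (half_pos hs).le e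
    have e2 := sg_spec (H := H) ho t (D.k j) (hz j) (half_pos hs) hb (h0 j)
    rw [h1, mul_one] at e2
    simp only [Dat.lv, Dat.lv0]
    rw [e2, c11_pm (sg_pm _ _ _)]

/-! ### `r → 0` and `s → 0` -/

open Classical in
/-- limit of the cut-off `W2` -/
noncomputable def Dat.V2 (D : Dat m N) (g : Fin N → NonemptyCompacts ℂ) : ℝ :=
  ∏ j, (if j ≠ 0 ∧ D.k j = D.k 0 then (if bott (D.z 0) (D.z j) (g (D.lv 0)) = 0 then 1 else 0)
    else 1)

open Classical in
/-- limit of the cut-off `W1` -/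
noncomputable def Dat.V1 (D : Dat m N) (g : Fin N → NonemptyCompacts ℂ) : ℝ :=
  ∏ j, (if D.z j ∈ (g (D.lv j) : Set ℂ) then 0 else 1)

theorem tendsto_W2 (D : Dat m N) (g : Fin N → NonemptyCompacts ℂ) :
    Tendsto (fun n : ℕ => D.W2 (1 / ((n : ℝ) + 1)) g) atTop (𝓝 (D.V2 g)) := by
  unfold Dat.W2 Dat.V2
  refine tendsto_finsetProd _ fun j _ => ?_
  by_cases h : j ≠ 0 ∧ D.k j = D.k 0
  · simp only [if_pos h]
    rcases (bott_nonneg (D.z 0) (D.z j) (g (D.lv 0) : Set ℂ)).eq_or_lt with hb | hb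
    · rw [if_pos hb.symm, ← hb]
      refine tendsto_const_nhds.congr fun n => ?_
      rw [zero_div, sub_zero, c01_one (by norm_num)]
    · rw [if_neg hb.ne']
      refine tendsto_const_nhds.congr' ?_
      have h2 : ∀ᶠ n : ℕ in atTop, 2 / bott (D.z 0) (D.z j) (g (D.lv 0) : Set ℂ) < n :=
        (tendsto_natCast_atTop_atTop (R := ℝ)).eventually_gt_atTop _
      filter_upwards [h2] with n hn
      rw [c01_zero]
      rw [div_lt_iff₀ hb] at hn
      rw [div_div_eq_mul_div, div_one, sub_nonpos]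
      nlinarith
  · simp only [if_neg h]
    exact tendsto_const_nhds

theorem tendsto_W1 (D : Dat m N) (g : Fin N → NonemptyCompacts ℂ) :
    Tendsto (fun n : ℕ => D.W1 (1 / ((n : ℝ) + 1)) g) atTop (𝓝 (D.V1 g)) := by
  unfold Dat.W1 Dat.V1
  refine tendsto_finsetProd _ fun j _ => ?_
  by_cases h : D.z j ∈ (g (D.lv j) : Set ℂ)
  · rw [if_pos h]
    refine tendsto_const_nhds.congr fun n => ?_
    rw [infDist_zero_of_mem h, mul_zero, zero_div, c01_zero (by norm_num)]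
  · rw [if_neg h]
    have hpos : 0 < infDist (D.z j) (g (D.lv j) : Set ℂ) :=
      ((g (D.lv j)).isCompact.isClosed.notMem_iff_infDist_pos (g (D.lv j)).nonempty).1 h
    refine tendsto_const_nhds.congr' ?_
    have h2 : ∀ᶠ n : ℕ in atTop, 2 / infDist (D.z j) (g (D.lv j) : Set ℂ) < n :=
      (tendsto_natCast_atTop_atTop (R := ℝ)).eventually_gt_atTop _
    filter_upwards [h2] with n hn
    rw [c01_one]
    rw [div_lt_iff₀ hpos] at hn
    rw [div_div_eq_mul_div, div_one]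
    nlinarith

end Vale.Agent.P155.Ex795
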