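import Vale.Agent.P155.T211Q.Hole

/-!
# P155, existence of the nested CLE_4: measurability of the smoothed height function
-/

namespace Vale.Agent.P155.Ex795

open Metric TopologicalSpace Topology MeasureTheory Filter Vale.Agent.P155
open Vale.Agent.P155.T211Q

/-- the bottleneck is 1-Lipschitz in its first point -/
theorem bott_lip_pt (z w z' : ℂ) (G : Set ℂ) : bott z z' G ≤ bott w z' G + dist z w := by
  refine csSup_le ⟨0, bott_zero_mem z z' G⟩ ?_
  rintro t ⟨γ, h0, h1, h⟩
  have key : t - dist z w ≤ bott w z' G := by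
    have hz : t ≤ infDist z G := by
      have := h 0
      rwa [h0] at this
    -- the straight segment from `w` to `z` followed by `γ`
    let p : Path w z := ⟨⟨fun u => (1 - (u : ℝ)) • w + (u : ℝ) • z, by fun_prop⟩, by simp, by simp⟩
    let q : Path z z' := ⟨γ, h0, h1⟩
    refine le_bott (p.trans q).toContinuousMap (p.trans q).source (p.trans q).target fun u => ?_
    have hmem : (p.trans q) u ∈ Set.range (p.trans q) := ⟨u, rfl⟩
    rw [Path.trans_range] at hmem
    rcases hmem with ⟨v, hv⟩ | ⟨v, hv⟩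
    · change t - dist z w ≤ infDist ((p.trans q) u) G
      rw [← hv]
      have h2 : infDist z G ≤ infDist (p v) G + dist z (p v) := infDist_le_infDist_add_dist
      have h3 : dist z (p v) ≤ dist z w := by
        have e : z - p v = (1 - (v : ℝ)) • (z - w) := by
          change z - ((1 - (v : ℝ)) • w + (v : ℝ) • z) = _
          simp only [Complex.real_smul]
          push_cast
          ring
        rw [dist_eq_norm, dist_eq_norm, e, norm_smul, Real.norm_eq_abs,
          abs_of_nonneg (by linarith [v.2.2])]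
        have := norm_nonneg (z - w)
        nlinarith [v.2.1]
      linarith
    · change t - dist z w ≤ infDist ((p.trans q) u) G
      rw [← hv]
      have h2 : t ≤ infDist (q v) G := h v
      have := dist_nonneg (x := z) (y := w)
      linarith
  linarith

theorem continuous_bott_pt (z' : ℂ) (G : Set ℂ) : Continuous fun z => bott z z' G := by
  have : LipschitzWith 1 fun z => bott z z' G := by
    refine LipschitzWith.of_dist_le_mul fun z w => ?_
    rw [NNReal.coe_one, one_mul, Real.dist_eq, abs_sub_le_iff]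
    constructor
    · linarith [bott_lip_pt z w z' G]
    · have := bott_lip_pt w z z' G
      rw [dist_comm] at this
      linarith
  exact this.continuous

section

variable {Θ : Type} [MeasurableSpace Θ]

theorem measurable_bott_joint {G : Θ → NonemptyCompacts ℂ}
    (mG : @Measurable _ _ _ (borel _) G) (z' : ℂ) :
    Measurable fun p : ℂ × Θ => bott p.1 z' (G p.2) := by
  let _ : MeasurableSpace (NonemptyCompacts ℂ) := borel _
  have : BorelSpace (NonemptyCompacts ℂ) := ⟨rfl⟩
  have h := measurable_uncurry_of_continuous_of_measurable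
    (u := fun (z : ℂ) (x : Θ) => bott z z' (G x : Set ℂ))
    (fun x => continuous_bott_pt z' _) (fun z => (continuous_bott z z').measurable.comp mG)
  exact h

theorem measurable_infDist_joint {G : Θ → NonemptyCompacts ℂ}
    (mG : @Measurable _ _ _ (borel _) G) :
    Measurable fun p : ℂ × Θ => infDist p.1 (G p.2 : Set ℂ) := by
  let _ : MeasurableSpace (NonemptyCompacts ℂ) := borel _
  have : BorelSpace (NonemptyCompacts ℂ) := ⟨rfl⟩
  have h := measurable_uncurry_of_continuous_of_measurable
    (u := fun (z : ℂ) (x : Θ) => infDist z (G x : Set ℂ))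
    (fun x => continuous_infDist_pt _) (fun z => (continuous_infDist z).measurable.comp mG)
  exact h

theorem measurable_idb_joint {G : Θ → NonemptyCompacts ℂ}
    (mG : @Measurable _ _ _ (borel _) G) : Measurable fun p : ℂ × Θ => idb p.1 (G p.2) := by
  have hp : ∀ i, MeasurableSet {p : ℂ × Θ | 0 < bott p.1 (denseSeq ℂ i) (G p.2)} := fun i =>
    measurableSet_lt measurable_const (measurable_bott_joint mG _)
  refine measurable_to_countable' fun n => ?_
  have hset : (fun p : ℂ × Θ => idb p.1 (G p.2)) ⁻¹' {n} =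
      ({p : ℂ × Θ | 0 < bott p.1 (denseSeq ℂ n) (G p.2)} ∩
        ⋂ j ∈ Set.Iio n, {p : ℂ × Θ | 0 < bott p.1 (denseSeq ℂ j) (G p.2)}ᶜ) ∪
      (if n = 0 then ⋂ j, {p : ℂ × Θ | 0 < bott p.1 (denseSeq ℂ j) (G p.2)}ᶜ else ∅) := by
    ext p
    simp only [Set.mem_preimage, Set.mem_singleton_iff, Set.mem_union, Set.mem_inter_iff,
      Set.mem_iInter, Set.mem_compl_iff, Set.mem_Iio, idb]
    constructor
    · intro h
      by_cases he : ∃ i, 0 < bott p.1 (denseSeq ℂ i) (G p.2)
      · left
        have h1 : sInf {i | 0 < bott p.1 (denseSeq ℂ i) (G p.2 : Set ℂ)} ∈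
            {i | 0 < bott p.1 (denseSeq ℂ i) (G p.2 : Set ℂ)} := Nat.sInf_mem he
        rw [h] at h1
        refine ⟨h1, fun j hj hj' => ?_⟩
        have h2 : sInf {i | 0 < bott p.1 (denseSeq ℂ i) (G p.2 : Set ℂ)} ≤ j := Nat.sInf_le hj'
        omega
      · right
        push Not at he
        have h0 : {i | 0 < bott p.1 (denseSeq ℂ i) (G p.2 : Set ℂ)} = ∅ := by
          ext i
          simp only [Set.mem_ofPred_eq, Set.mem_empty_iff_false, iff_false, not_lt]
          exact he i
        rw [h0, Nat.sInf_empty] at h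
        rw [if_pos h.symm]
        simp only [Set.mem_iInter]
        intro j hj
        exact absurd (he j) (not_le.2 hj)
    · rintro (⟨h1, h2⟩ | h)
      · refine le_antisymm (Nat.sInf_le h1) ?_
        by_contra hlt
        push Not at hlt
        have hm : sInf {i | 0 < bott p.1 (denseSeq ℂ i) (G p.2 : Set ℂ)} ∈
            {i | 0 < bott p.1 (denseSeq ℂ i) (G p.2 : Set ℂ)} := Nat.sInf_mem ⟨n, h1⟩
        exact h2 _ hlt hm
      · split_ifs at h with hn
        · subst hn
          have h0 : {i | 0 < bott p.1 (denseSeq ℂ i) (G p.2 : Set ℂ)} = ∅ := by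
            ext i
            simp only [Set.mem_ofPred_eq, Set.mem_empty_iff_false, iff_false]
            exact (Set.mem_iInter.1 h i)
          rw [h0, Nat.sInf_empty]
        · exact absurd h (Set.notMem_empty _)
  rw [hset]
  refine ((hp n).inter (MeasurableSet.biInter (Set.to_countable _) fun j _ => (hp j).compl)).union ?_
  split_ifs
  · exact MeasurableSet.iInter fun j => (hp j).compl
  · exact MeasurableSet.empty

/-- the height function is jointly measurable in the point and the sample -/
theorem measurable_height_joint {Ω : Set ℂ} (ho : IsOpen Ω) {G : ℕ → Θ → NonemptyCompacts ℂ}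
    (mG : ∀ k, @Measurable _ _ _ (borel _) (G k)) (hfr : ∀ k x, frontier Ω ⊆ (G k x : Set ℂ))
    {ξ : ℕ → ℕ → Θ → ℝ} (mξ : ∀ k i, Measurable (ξ k i)) (k : ℕ) :
    Measurable fun p : ℂ × Θ => Q1.height Ω (fun j => G j p.2) (fun j i => ξ j i p.2) k p.1 := by
  unfold Q1.height
  refine Finset.measurable_sum _ fun j _ => ?_
  classical
  have h1 : MeasurableSet {p : ℂ × Θ | p.1 ∈ Ω ∧ 0 < infDist p.1 (G j p.2 : Set ℂ)} :=
    (measurable_fst ho.measurableSet).inter
      (measurableSet_lt measurable_const (measurable_infDist_joint (mG j)))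
  have h2 : Measurable fun q : ℕ × Θ => ξ j q.1 q.2 := measurable_from_prod_countable_right (mξ j)
  have h3 : Measurable fun p : ℂ × Θ => ξ j (idb p.1 (G j p.2)) p.2 :=
    h2.comp ((measurable_idb_joint (mG j)).prodMk measurable_snd)
  have h4 : (fun p : ℂ × Θ => if p.1 ∈ Ω \ (G j p.2 : Set ℂ) then
      ξ j (Q1.idx (connectedComponentIn (Ω \ (G j p.2 : Set ℂ)) p.1)) p.2 else 0) =
      Set.indicator {p : ℂ × Θ | p.1 ∈ Ω ∧ 0 < infDist p.1 (G j p.2 : Set ℂ)}
        (fun p => ξ j (idb p.1 (G j p.2)) p.2) := by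
    funext p
    have hiff : p.1 ∉ (G j p.2 : Set ℂ) ↔ 0 < infDist p.1 (G j p.2 : Set ℂ) :=
      (G j p.2).isCompact.isClosed.notMem_iff_infDist_pos (G j p.2).nonempty
    by_cases hp : p.1 ∈ Ω \ (G j p.2 : Set ℂ)
    · have hm : p ∈ {p : ℂ × Θ | p.1 ∈ Ω ∧ 0 < infDist p.1 (G j p.2 : Set ℂ)} :=
        ⟨hp.1, hiff.1 hp.2⟩
      rw [if_pos hp, Set.indicator_of_mem hm, idb_eq ho (hfr j p.2) hp.1]
    · rw [if_neg hp, Set.indicator_of_notMem]
      rintro ⟨ha, hb⟩
      exact hp ⟨ha, hiff.2 hb⟩
  have h5 : Measurable (fun p : ℂ × Θ => if p.1 ∈ Ω \ (G j p.2 : Set ℂ) then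
      ξ j (Q1.idx (connectedComponentIn (Ω \ (G j p.2 : Set ℂ)) p.1)) p.2 else 0) := by
    rw [h4]
    exact h3.indicator h1
  exact h5

/-- the smoothed height function is measurable -/
theorem meas_height {Ω : Set ℂ} (ho : IsOpen Ω)
    {G : ℕ → Θ → NonemptyCompacts ℂ}
    (mG : ∀ k, @Measurable _ _ _ (borel _) (G k)) (hfr : ∀ k x, frontier Ω ⊆ (G k x : Set ℂ))
    {ξ : ℕ → ℕ → Θ → ℝ} (mξ : ∀ k i, Measurable (ξ k i))
    (k : ℕ) {φ : ℂ → ℝ} (hφ : IsTest Ω φ) :
    Measurable (fun x => ∫ z, Q1.height Ω (fun j => G j x) (fun j i => ξ j i x) k z * φ z) := by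
  have h1 := measurable_height_joint ho mG hfr mξ k
  have h2 : Measurable fun p : Θ × ℂ =>
      Q1.height Ω (fun j => G j p.1) (fun j i => ξ j i p.1) k p.2 * φ p.2 :=
    (h1.comp measurable_swap).mul (hφ.1.continuous.measurable.comp measurable_snd)
  exact (h2.stronglyMeasurable.integral_prod_right').measurable

end

/-- adding a fixed compact set to a measurable random compact set -/
theorem meas_sup {Θ : Type} [MeasurableSpace Θ] {G : Θ → NonemptyCompacts ℂ}
    (mG : @Measurable _ _ _ (borel _) G) (Fr : NonemptyCompacts ℂ) :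
    @Measurable _ _ _ (borel _) (fun x => G x ⊔ Fr) := by
  let _ : MeasurableSpace (NonemptyCompacts ℂ) := borel _
  have : BorelSpace (NonemptyCompacts ℂ) := ⟨rfl⟩
  have hc : Continuous fun K : NonemptyCompacts ℂ => K ⊔ Fr :=
    continuous_id.sup continuous_const
  exact hc.measurable.comp mG

end Vale.Agent.P155.Ex795
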