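import Vale.Agent.P155.Ex795.Act
import Vale.Agent.P155.Ex795.Coins
import Vale.Agent.P155.Ex795.Meas
import Vale.Agent.P155.U.Family
import Vale.Agent.P155.U.Iface

/-!
# P155, stage 2, signs of the limit: signed carpets with fair signs
-/

namespace Vale.Agent.P155.Ex795

open Metric TopologicalSpace Topology MeasureTheory Filter Vale.Agent.P155 T211Q Set

section

variable {Θ : Type} [MeasurableSpace Θ] {P : Measure Θ} {Ω : Set ℂ}
    {G : ℕ → Θ → NonemptyCompacts ℂ} {H : ℕ → Θ → (ℂ → ℝ) → ℝ} {m N : ℕ}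

/-- signed carpets after a change on a null set -/
theorem sc_congr (sc : IsSignedCarpets P Ω G H) {G' : ℕ → Θ → NonemptyCompacts ℂ}
    {H' : ℕ → Θ → (ℂ → ℝ) → ℝ} (hG : ∀ᵐ x ∂P, ∀ k, G' k x = G k x)
    (hH : ∀ᵐ x ∂P, ∀ k φ, IsTest Ω φ → H' k x φ = H k x φ)
    (meas : ∀ k, @Measurable _ _ _ (borel (NonemptyCompacts ℂ)) (G' k) ∧
      ∀ φ, IsTest Ω φ → Measurable (fun x => H' k x φ) ∧
        Measurable (fun x => greenEnergy (Ω \ (G' k x : Set ℂ)) φ)) :
    IsSignedCarpets P Ω G' H' where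
  zero := by
    filter_upwards [hG, hH, sc.zero] with x h1 h2 h3
    refine ⟨by rw [h1]; exact h3.1, fun φ hφ => ?_⟩
    rw [h2 0 φ hφ]
    exact h3.2 φ hφ
  rep := by
    filter_upwards [hH, sc.rep] with x h2 h3 k
    obtain ⟨g, g1, g2, g3⟩ := h3 k
    refine ⟨g, g1, g2, fun φ hφ => ?_⟩
    rw [h2 k φ hφ]
    exact g3 φ hφ
  mono := by
    filter_upwards [hG, sc.mono] with x h1 h3 k
    rw [h1, h1]
    exact h3 k
  conn := by
    filter_upwards [hG, sc.conn] with x h1 h3 k
    rw [h1]
    exact h3 k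
  null := by
    filter_upwards [hG, sc.null] with x h1 h3 k
    rw [h1]
    exact h3 k
  sign := by
    filter_upwards [hG, hH, sc.sign] with x h1 h2 h3 k z r hr hb hd
    rw [h1] at hd
    obtain ⟨s, hs, h4⟩ := h3 k z r hr hb hd
    refine ⟨s, hs, fun φ hφ => ?_⟩
    have hφ' : IsTest Ω φ := K1.IsTest_mono (ball_subset_closedBall.trans hb) hφ
    rw [h2 _ φ hφ', h2 _ φ hφ']
    exact h4 φ hφ
  meas := meas
  gff := by
    intro k m χ φ hχ hφ F hF hC
    have h := sc.gff k m χ φ hχ hφ F hF hC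
    refine Eq.trans (integral_congr_ae ?_) (h.trans (integral_congr_ae ?_))
    · filter_upwards [hG, hH] with x h1 h2
      have e1 : (fun j : Fin (k + 1) => G' j x) = fun j : Fin (k + 1) => G j x :=
        funext fun j => h1 j
      have e2 : (fun (j : Fin (k + 1)) i => H' j x (χ i)) = fun (j : Fin (k + 1)) i => H j x (χ i) :=
        funext fun j => funext fun i => h2 j _ (hχ i)
      rw [e1, e2, h1, h2 _ _ hφ, h2 _ _ hφ]
    · filter_upwards [hG, hH] with x h1 h2
      have e1 : (fun j : Fin (k + 1) => G' j x) = fun j : Fin (k + 1) => G j x :=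
        funext fun j => h1 j
      have e2 : (fun (j : Fin (k + 1)) i => H' j x (χ i)) = fun (j : Fin (k + 1)) i => H j x (χ i) :=
        funext fun j => funext fun i => h2 j _ (hχ i)
      rw [e1, e2, h1]

/-- signed carpets on a product space -/
theorem sc_fst [SFinite P] (sc : IsSignedCarpets P Ω G H) {Θ' : Type} [MeasurableSpace Θ']
    (ν : Measure Θ') [IsProbabilityMeasure ν] :
    IsSignedCarpets (P.prod ν) Ω (fun k y => G k y.1) (fun k y => H k y.1) where
  zero := Measure.quasiMeasurePreserving_fst.ae sc.zero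
  rep := Measure.quasiMeasurePreserving_fst.ae sc.rep
  mono := Measure.quasiMeasurePreserving_fst.ae sc.mono
  conn := Measure.quasiMeasurePreserving_fst.ae sc.conn
  null := Measure.quasiMeasurePreserving_fst.ae sc.null
  sign := Measure.quasiMeasurePreserving_fst.ae sc.sign
  meas := fun k => ⟨(sc.meas k).1.comp measurable_fst, fun φ hφ =>
    ⟨((sc.meas k).2 φ hφ).1.comp measurable_fst, ((sc.meas k).2 φ hφ).2.comp measurable_fst⟩⟩
  gff := by
    intro k m χ φ hχ hφ F hF hC
    have h := sc.gff k m χ φ hχ hφ F hF hC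
    have e1 := integral_fun_fst (μ := P) (ν := ν) (fun x =>
      (F (fun j => G j x, fun j i => H j x (χ i)) : ℂ) *
        Complex.exp (Complex.I * Real.sqrt (Real.pi / 2) * (H (k + 1) x φ - H k x φ) -
          greenEnergy (Ω \ G (k + 1) x) φ / 2))
    have e2 := integral_fun_fst (μ := P) (ν := ν) (fun x =>
      (F (fun j => G j x, fun j i => H j x (χ i)) : ℂ) *
        Complex.exp (- greenEnergy (Ω \ G k x) φ / 2))
    rw [probReal_univ, one_smul] at e1 e2
    exact e1.trans (h.trans e2.symm)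

/-- the height function of the signs is the height of the signed carpets -/
theorem height_eq (ho : IsOpen Ω) {x : Θ} (t : Typ Ω (fun k => G k x) (fun k => H k x))
    (h0 : ∀ φ, IsTest Ω φ → H 0 x φ = 0)
    (hrep : ∀ k : ℕ, ∃ g : ℂ → ℝ, Measurable g ∧ (∀ z, |g z| ≤ k) ∧
      ∀ φ, IsTest Ω φ → H k x φ = ∫ z, g z * φ z)
    (hnull : ∀ k, volume ((G k x : Set ℂ) ∩ Ω) = 0) {ξ : ℕ → ℕ → ℝ}
    (hpm : ∀ k i, ξ k i = 1 ∨ ξ k i = -1)
    (hξ : ∀ k z, z ∈ Ω \ (G (k + 1) x : Set ℂ) →
      ξ (k + 1) (Q1.idx (connectedComponentIn (Ω \ G (k + 1) x) z)) = sg Ω G H k z x)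
    (k : ℕ) {φ : ℂ → ℝ} (hφ : IsTest Ω φ) :
    ∫ z, Q1.height Ω (fun j => G j x) ξ k z * φ z = H k x φ := by
  classical
  have hint : ∀ {U : Set ℂ} {φ : ℂ → ℝ}, IsTest U φ → ∀ {f : ℂ → ℝ}, Measurable f → ∀ {C : ℝ},
      (∀ z, |f z| ≤ C) → Integrable (fun z => f z * φ z) := fun hφ f hf C hC =>
    (K1.test_integrable hφ).bdd_mul hf.aestronglyMeasurable
      (Eventually.of_forall fun w => by rw [Real.norm_eq_abs]; exact hC w)
  have mh := fun k => measurable_height ho (fun j => G j x) ξ k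
  have bh := fun k z => abs_height_le (Ω := Ω) (fun j => G j x) hpm k z
  induction k with
  | zero =>
    rw [h0 φ hφ]
    have : ∀ z, Q1.height Ω (fun j => G j x) ξ 0 z = 0 := fun z => by
      unfold Q1.height
      simp
    simp only [this, zero_mul, integral_zero]
  | succ k ih =>
    obtain ⟨g, g1, g2, g3⟩ := hrep k
    obtain ⟨g', g1', g2', g3'⟩ := hrep (k + 1)
    set U : Set ℂ := Ω \ (G (k + 1) x : Set ℂ) with hU
    have hUo : IsOpen U := ho.sdiff (G (k + 1) x).isCompact.isClosed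
    -- the error
    set f : ℂ → ℝ := fun z => (g' z - g z) - (Q1.height Ω (fun j => G j x) ξ (k + 1) z -
      Q1.height Ω (fun j => G j x) ξ k z) with hf
    have mf : Measurable f := (g1'.sub g1).sub ((mh (k + 1)).sub (mh k))
    have bf : ∀ z, |f z| ≤ 4 * (k + 1) := by
      intro z
      have a1 := abs_le.1 (g2 z)
      have a2 := abs_le.1 (g2' z)
      have a3 := abs_le.1 (bh k z)
      have a4 := abs_le.1 (bh (k + 1) z)
      push_cast at a2 a4
      rw [abs_le]
      simp only [hf]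
      constructor <;> linarith [a1.1, a1.2, a2.1, a2.2, a3.1, a3.2, a4.1, a4.2]
    have hinc : ∀ z ∈ U, Q1.height Ω (fun j => G j x) ξ (k + 1) z -
        Q1.height Ω (fun j => G j x) ξ k z = sg Ω G H k z x := by
      intro z hz
      rw [height_succ, if_pos hz, hξ k z hz]
      ring
    have hpair : ∀ {V : Set ℂ} {ψ : ℂ → ℝ}, V ⊆ Ω → IsTest V ψ →
        ∫ z, f z * ψ z = (H (k + 1) x ψ - H k x ψ) -
          ∫ z, (Q1.height Ω (fun j => G j x) ξ (k + 1) z -
            Q1.height Ω (fun j => G j x) ξ k z) * ψ z := by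
      intro V ψ hV hψ
      have hψ' : IsTest Ω ψ := K1.IsTest_mono hV hψ
      rw [g3 ψ hψ', g3' ψ hψ', ← integral_sub (hint hψ' g1' g2') (hint hψ' g1 g2),
        ← integral_sub]
      · refine integral_congr_ae (Eventually.of_forall fun z => ?_)
        simp only [hf]
        ring
      · refine ((hint hψ' g1' g2').sub (hint hψ' g1 g2)).congr (Eventually.of_forall fun z => ?_)
        rfl
      · refine ((hint hψ' (mh (k + 1)) (bh (k + 1))).sub (hint hψ' (mh k) (bh k))).congr
          (Eventually.of_forall fun z => ?_)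
        simp only [Pi.sub_apply]
        ring
    have hzero : volume {z | z ∈ U ∧ f z ≠ 0} = 0 := by
      refine measure_null_of_locally_null _ fun z hz => ?_
      obtain ⟨r, hr, hrs⟩ := nhds_basis_closedBall.mem_iff.mp (hUo.mem_nhds hz.1)
      refine ⟨{z | z ∈ U ∧ f z ≠ 0} ∩ ball z r,
        inter_mem self_mem_nhdsWithin (mem_nhdsWithin_of_mem_nhds (ball_mem_nhds z hr)), ?_⟩
      have hB : ball z r ⊆ U := ball_subset_closedBall.trans hrs
      have h1 : ∀ᵐ w ∂(volume : Measure ℂ), w ∈ ball z r → f w = 0 := by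
        refine isOpen_ball.ae_eq_zero_of_integral_contDiff_smul_eq_zero ?_ ?_
        · refine IntegrableOn.locallyIntegrableOn ?_
          exact Measure.integrableOn_of_bounded measure_ball_lt_top.ne mf.aestronglyMeasurable
            (Eventually.of_forall fun w => by rw [Real.norm_eq_abs]; exact bf w)
        · intro ψ ψ1 ψ2 ψ3
          have hψ : IsTest (ball z r) ψ := ⟨ψ1, ψ2, ψ3⟩
          have e1 : ∫ w, ψ w • f w = ∫ w, f w * ψ w :=
            integral_congr_ae (Eventually.of_forall fun w => mul_comm _ _)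
          rw [e1, hpair (hB.trans sdiff_subset) hψ, sg_spec ho t k hz.1.1 hr hrs hψ,
            ← integral_const_mul, sub_eq_zero]
          refine integral_congr_ae (Eventually.of_forall fun w => ?_)
          beta_reduce
          by_cases hw : w ∈ ball z r
          · rw [hinc w (hB hw), sg_ball ho t k hz.1.1 hr hrs hw]
          · rw [K1.test_zero_off hψ hw, mul_zero, mul_zero]
      refine measure_mono_null ?_ (ae_iff.1 h1)
      rintro w ⟨⟨-, hw1⟩, hw2⟩ h
      exact hw1 (h hw2)
    have hfz : ∀ᵐ z ∂(volume : Measure ℂ), z ∈ Ω → f z = 0 := by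
      rw [ae_iff]
      refine measure_mono_null (t := {z | z ∈ U ∧ f z ≠ 0} ∪ ((G (k + 1) x : Set ℂ) ∩ Ω)) ?_
        (measure_union_null hzero (hnull (k + 1)))
      intro z hz
      have hz' : ¬ (z ∈ Ω → f z = 0) := hz
      push Not at hz'
      by_cases hzG : z ∈ (G (k + 1) x : Set ℂ)
      · exact Or.inr ⟨hzG, hz'.1⟩
      · exact Or.inl ⟨⟨hz'.1, hzG⟩, hz'.2⟩
    have h3 := hpair (subset_refl Ω) hφ
    have h4 : ∫ z, f z * φ z = 0 := by
      have : (fun z => f z * φ z) =ᵐ[volume] fun _ => (0 : ℝ) := by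
        filter_upwards [hfz] with z hz
        by_cases hzΩ : z ∈ Ω
        · rw [hz hzΩ, zero_mul]
        · rw [K1.test_zero_off hφ hzΩ, mul_zero]
      rw [integral_congr_ae this, integral_zero]
    have h5 : ∫ z, (Q1.height Ω (fun j => G j x) ξ (k + 1) z -
        Q1.height Ω (fun j => G j x) ξ k z) * φ z =
        (∫ z, Q1.height Ω (fun j => G j x) ξ (k + 1) z * φ z) -
          ∫ z, Q1.height Ω (fun j => G j x) ξ k z * φ z := by
      rw [← integral_sub (hint hφ (mh (k + 1)) (bh (k + 1))) (hint hφ (mh k) (bh k))]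
      refine integral_congr_ae (Eventually.of_forall fun z => ?_)
      beta_reduce
      ring
    rw [h4, h5, ih] at h3
    linarith

end

end Vale.Agent.P155.Ex795
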