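import Vale.Agent.P155.Ex795.Disc

/-!
# P155, stage 2, signs of the limit: the sign of the increment of the height near a point
-/

namespace Vale.Agent.P155.Ex795

open Metric TopologicalSpace Topology MeasureTheory Filter Vale.Agent.P155 T211Q

/-- a ball of radius less than the distance from a carpet containing the frontier -/
theorem ball_sub {Ω : Set ℂ} (ho : IsOpen Ω) {G : Set ℂ} (hfr : frontier Ω ⊆ G) {z : ℂ}
    (hz : z ∈ Ω) {ρ : ℝ} (hρ : 0 ≤ ρ) (h : ρ < infDist z G) : closedBall z ρ ⊆ Ω \ G := by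
  intro w hw
  have hwG : ∀ u ∈ closedBall z ρ, u ∉ G := by
    intro u hu hG
    have := infDist_le_dist_of_mem (x := z) hG
    rw [mem_closedBall, dist_comm] at hu
    linarith
  refine ⟨?_, hwG w hw⟩
  by_contra hwΩ
  obtain ⟨p, hp, hd⟩ := exists_frontier ho hz hρ (fun hsub => hwΩ (hsub hw))
  exact hwG p (by rw [mem_closedBall, dist_comm]; exact hd) (hfr hp)

open Classical in
/-- normalised bump near `z`, if it fits into `Ω` -/
noncomputable def bmp (Ω : Set ℂ) (z : ℂ) (n : ℕ) : ℂ → ℝ :=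
  if closedBall z (1 / ((n : ℝ) + 1)) ⊆ Ω then
    (exists_bump z (ρ := 1 / ((n : ℝ) + 1)) (by positivity)).choose else fun _ => 0

theorem isTest_zero (Ω : Set ℂ) : IsTest Ω (fun _ => 0) :=
  ⟨contDiff_const, HasCompactSupport.zero, by
    have : tsupport (fun _ : ℂ => (0 : ℝ)) = ∅ := by
      rw [tsupport_eq_empty_iff]
      rfl
    rw [this]
    exact Set.empty_subset _⟩

theorem isTest_bmp (Ω : Set ℂ) (z : ℂ) (n : ℕ) : IsTest Ω (bmp Ω z n) := by
  unfold bmp
  split_ifs with h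
  · exact K1.IsTest_mono (ball_subset_closedBall.trans h)
      (exists_bump z (ρ := 1 / ((n : ℝ) + 1)) (by positivity)).choose_spec.1
  · exact isTest_zero Ω

theorem bmp_spec {Ω : Set ℂ} {z : ℂ} {n : ℕ} (h : closedBall z (1 / ((n : ℝ) + 1)) ⊆ Ω) :
    IsTest (ball z (1 / ((n : ℝ) + 1))) (bmp Ω z n) ∧ ∫ w, bmp Ω z n w = 1 := by
  unfold bmp
  rw [if_pos h]
  exact (exists_bump z (ρ := 1 / ((n : ℝ) + 1)) (by positivity)).choose_spec

open Classical in
/-- the sign of a real number -/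
noncomputable def sn (t : ℝ) : ℝ := if 0 ≤ t then 1 else -1

theorem sn_pm (t : ℝ) : sn t = 1 ∨ sn t = -1 := by
  unfold sn
  split_ifs
  exacts [Or.inl rfl, Or.inr rfl]

theorem sn_eq {s : ℝ} (h : s = 1 ∨ s = -1) : sn s = s := by
  unfold sn
  rcases h with rfl | rfl
  · rw [if_pos zero_le_one]
  · rw [if_neg (by norm_num)]

theorem measurable_sn : Measurable sn := by
  unfold sn
  exact Measurable.ite measurableSet_Ici measurable_const measurable_const

variable {Θ : Type} [MeasurableSpace Θ] {P : Measure Θ} {Ω : Set ℂ}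
    {G : ℕ → Θ → NonemptyCompacts ℂ} {H : ℕ → Θ → (ℂ → ℝ) → ℝ}

/-- the sign of `H (k+1) - H k` near `z` -/
noncomputable def sg (Ω : Set ℂ) (G : ℕ → Θ → NonemptyCompacts ℂ) (H : ℕ → Θ → (ℂ → ℝ) → ℝ)
    (k : ℕ) (z : ℂ) (x : Θ) : ℝ :=
  sn (H (k + 1) x (bmp Ω z ⌈(infDist z (G (k + 1) x))⁻¹⌉₊) -
    H k x (bmp Ω z ⌈(infDist z (G (k + 1) x))⁻¹⌉₊))

theorem sg_pm (k : ℕ) (z : ℂ) (x : Θ) : sg Ω G H k z x = 1 ∨ sg Ω G H k z x = -1 := sn_pm _

theorem abs_sg (k : ℕ) (z : ℂ) (x : Θ) : |sg Ω G H k z x| = 1 := by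
  rcases sg_pm (Ω := Ω) (G := G) (H := H) k z x with h | h <;> rw [h] <;> norm_num

theorem measurable_infDist' (mG : ∀ k, @Measurable _ _ _ (borel (NonemptyCompacts ℂ)) (G k))
    (k : ℕ) (z : ℂ) : Measurable fun x => infDist z (G k x : Set ℂ) := by
  let _ : MeasurableSpace (NonemptyCompacts ℂ) := borel _
  have : BorelSpace (NonemptyCompacts ℂ) := ⟨rfl⟩
  exact (continuous_infDist z).measurable.comp (mG k)

theorem measurable_sg (sc : IsSignedCarpets P Ω G H) (k : ℕ) (z : ℂ) :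
    Measurable (sg Ω G H k z) := by
  have h1 : Measurable fun x => ⌈(infDist z (G (k + 1) x : Set ℂ))⁻¹⌉₊ :=
    Nat.measurable_ceil.comp (measurable_infDist' (fun k => (sc.meas k).1) (k + 1) z).inv
  have h2 : ∀ n : ℕ, Measurable fun x => H (k + 1) x (bmp Ω z n) - H k x (bmp Ω z n) := fun n =>
    (((sc.meas (k + 1)).2 _ (isTest_bmp Ω z n)).1).sub (((sc.meas k).2 _ (isTest_bmp Ω z n)).1)
  have h3 : Measurable fun p : Θ × ℕ => H (k + 1) p.1 (bmp Ω z p.2) - H k p.1 (bmp Ω z p.2) :=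
    measurable_from_prod_countable_left fun n => h2 n
  exact measurable_sn.comp (h3.comp (measurable_id.prodMk h1))

/-- properties of a typical point -/
structure Typ (Ω : Set ℂ) (G : ℕ → NonemptyCompacts ℂ) (H : ℕ → (ℂ → ℝ) → ℝ) : Prop where
  fr : ∀ k, frontier Ω ⊆ (G k : Set ℂ)
  sign : ∀ k z r, 0 < r → closedBall z r ⊆ Ω → Disjoint (closedBall z r) (G (k + 1) : Set ℂ) →
    ∃ s : ℝ, (s = 1 ∨ s = -1) ∧ ∀ φ, IsTest (ball z r) φ → H (k + 1) φ - H k φ = s * ∫ w, φ w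

theorem typ (sc : IsSignedCarpets P Ω G H) : ∀ᵐ x ∂P, Typ Ω (fun k => G k x) (fun k => H k x) := by
  filter_upwards [sc.zero, sc.mono, sc.sign] with x h1 h2 h3
  refine ⟨fun k => ?_, h3⟩
  rw [← h1.1]
  induction k with
  | zero => exact le_rfl
  | succ k ih => exact ih.trans (h2 k).1

/-- `sg` is the sign of the increment on every ball around `z` -/
theorem sg_spec (ho : IsOpen Ω) {x : Θ} (t : Typ Ω (fun k => G k x) (fun k => H k x)) (k : ℕ)
    {z : ℂ} (hz : z ∈ Ω) {r : ℝ} (hr : 0 < r) (hb : closedBall z r ⊆ Ω \ (G (k + 1) x : Set ℂ))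
    {φ : ℂ → ℝ} (hφ : IsTest (ball z r) φ) :
    H (k + 1) x φ - H k x φ = sg Ω G H k z x * ∫ w, φ w := by
  have hzG : z ∉ (G (k + 1) x : Set ℂ) := (hb (mem_closedBall_self hr.le)).2
  have hpos : 0 < infDist z (G (k + 1) x : Set ℂ) :=
    ((G (k + 1) x).isCompact.isClosed.notMem_iff_infDist_pos (G (k + 1) x).nonempty).1 hzG
  set N := ⌈(infDist z (G (k + 1) x : Set ℂ))⁻¹⌉₊ with hN
  have hN1 : 1 / ((N : ℝ) + 1) < infDist z (G (k + 1) x : Set ℂ) := by
    rw [one_div, inv_lt_comm₀ (by positivity) hpos]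
    exact (Nat.le_ceil _).trans_lt (by rw [← hN]; linarith)
  have hb' := ball_sub ho (t.fr (k + 1)) hz (by positivity) hN1
  have hbΩ : closedBall z (1 / ((N : ℝ) + 1)) ⊆ Ω := fun w hw => (hb' hw).1
  obtain ⟨ht, hi⟩ := bmp_spec hbΩ
  -- the larger ball
  set ρ := max r (1 / ((N : ℝ) + 1)) with hρ
  have hρb : closedBall z ρ ⊆ Ω \ (G (k + 1) x : Set ℂ) := by
    rcases le_total r (1 / ((N : ℝ) + 1)) with h | h
    · rw [hρ, max_eq_right h]
      exact hb'
    · rw [hρ, max_eq_left h]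
      exact hb
  obtain ⟨s, hs, hs2⟩ := t.sign k z ρ (hr.trans_le (le_max_left _ _)) (fun w hw => (hρb hw).1)
    (Set.disjoint_left.2 fun w hw => (hρb hw).2)
  have e1 := hs2 φ (K1.IsTest_mono (ball_subset_ball (le_max_left _ _)) hφ)
  have e2 := hs2 _ (K1.IsTest_mono (ball_subset_ball (le_max_right _ _)) ht)
  rw [hi, mul_one] at e2
  have e3 : sg Ω G H k z x = s := by
    unfold sg
    rw [← hN]
    have : H (k + 1) x (bmp Ω z N) - H k x (bmp Ω z N) = s := e2
    rw [this]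
    exact sn_eq hs
  rw [e3]
  exact e1

/-- `sg` is locally constant -/
theorem sg_ball (ho : IsOpen Ω) {x : Θ} (t : Typ Ω (fun k => G k x) (fun k => H k x)) (k : ℕ)
    {z w : ℂ} (hz : z ∈ Ω) {r : ℝ} (hr : 0 < r) (hb : closedBall z r ⊆ Ω \ (G (k + 1) x : Set ℂ))
    (hw : w ∈ ball z r) : sg Ω G H k w x = sg Ω G H k z x := by
  have hd : 0 < r - dist w z := by
    rw [mem_ball] at hw
    linarith
  have hsub : ball w (r - dist w z) ⊆ ball z r := ball_subset_ball' (by linarith)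
  have hsub' : closedBall w ((r - dist w z) / 2) ⊆ ball z r := by
    refine (closedBall_subset_ball (by linarith)).trans hsub
  obtain ⟨φ, hφ, hφ1⟩ := exists_bump w (ρ := (r - dist w z) / 2) (by positivity)
  have e1 := sg_spec (H := H) ho t k (z := w) (hb (ball_subset_closedBall hw)).1
    (r := (r - dist w z) / 2) (by positivity)
    (hsub'.trans (ball_subset_closedBall.trans hb)) hφ
  have e2 := sg_spec (H := H) ho t k hz hr hb
    (K1.IsTest_mono (ball_subset_closedBall.trans hsub') hφ)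
  rw [hφ1, mul_one] at e1 e2
  rw [← e1, ← e2]

/-- `sg` is constant on the holes -/
theorem sg_comp (ho : IsOpen Ω) {x : Θ} (t : Typ Ω (fun k => G k x) (fun k => H k x)) (k : ℕ)
    {z w : ℂ} (hw : w ∈ connectedComponentIn (Ω \ (G (k + 1) x : Set ℂ)) z) :
    sg Ω G H k w x = sg Ω G H k z x := by
  have hU : IsOpen (Ω \ (G (k + 1) x : Set ℂ)) := ho.sdiff (G (k + 1) x).isCompact.isClosed
  have hz : z ∈ Ω \ (G (k + 1) x : Set ℂ) := by
    by_contra hz
    rw [connectedComponentIn_eq_empty hz] at hw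
    exact hw
  set C := connectedComponentIn (Ω \ (G (k + 1) x : Set ℂ)) z with hC
  have hCp : IsPreconnected C := isPreconnected_connectedComponentIn
  have : PreconnectedSpace C := isPreconnected_iff_preconnectedSpace.1 hCp
  have hloc : IsLocallyConstant (fun u : C => sg Ω G H k u x) := by
    rw [IsLocallyConstant.iff_eventually_eq]
    intro u
    have huU : (u : ℂ) ∈ Ω \ (G (k + 1) x : Set ℂ) := connectedComponentIn_subset _ _ u.2
    obtain ⟨ρ, hρ, hρs⟩ := nhds_basis_closedBall.mem_iff.mp (hU.mem_nhds huU)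
    have h2 : ∀ᶠ y : C in 𝓝 u, (y : ℂ) ∈ ball (u : ℂ) ρ :=
      (continuous_subtype_val.tendsto u).eventually (ball_mem_nhds _ hρ)
    filter_upwards [h2] with y hy
    exact sg_ball ho t k huU.1 hρ hρs hy
  exact hloc.apply_eq_of_preconnectedSpace ⟨w, hw⟩ ⟨z, mem_connectedComponentIn hz⟩

end Vale.Agent.P155.Ex795
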