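import Vale.Agent.P155.Ex795.Lim

/-!
# P155, stage 2, signs of the limit: moments of the signs
-/

namespace Vale.Agent.P155.Ex795

open Metric TopologicalSpace Topology MeasureTheory Filter Vale.Agent.P155 T211Q

variable {Θ : Type} [MeasurableSpace Θ] {P : Measure Θ} {Ω : Set ℂ}
    {G : ℕ → Θ → NonemptyCompacts ℂ} {H : ℕ → Θ → (ℂ → ℝ) → ℝ} {m N : ℕ}

theorem measurable_cont (mG : ∀ k, @Measurable _ _ _ (borel (NonemptyCompacts ℂ)) (G k))
    {f : (Fin N → NonemptyCompacts ℂ) → ℝ} (hf : Continuous f) :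
    Measurable fun x => f (fun l => G l x) := by
  let _ : MeasurableSpace (NonemptyCompacts ℂ) := borel _
  have : BorelSpace (NonemptyCompacts ℂ) := ⟨rfl⟩
  have h : Measurable fun x => (fun l : Fin N => G l x) := measurable_pi_lambda _ fun l => mG l
  exact hf.measurable.comp h

theorem measurable_psg (sc : IsSignedCarpets P Ω G H) (D : Dat m N) :
    Measurable fun x => ∏ j, sg Ω G H (D.k j) (D.z j) x :=
  Finset.measurable_prod _ fun j _ => measurable_sg sc _ _

theorem abs_psg (D : Dat m N) (x : Θ) : |∏ j, sg Ω G H (D.k j) (D.z j) x| = 1 := by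
  rw [Finset.abs_prod]
  exact Finset.prod_eq_one fun j _ => abs_sg _ _ _

theorem abs_le3 {a b c C : ℝ} (ha : |a| ≤ C) (hb : |b| ≤ 1) (hc : |c| = 1) :
    |a * b * c| ≤ C := by
  rw [abs_mul, abs_mul, hc, mul_one]
  have hC : 0 ≤ C := (abs_nonneg _).trans ha
  calc |a| * |b| ≤ C * 1 := mul_le_mul ha hb (abs_nonneg _) hC
    _ = C := mul_one C

theorem star_s [IsProbabilityMeasure P] (ho : IsOpen Ω) (sc : IsSignedCarpets P Ω G H)
    {S : TempApprox Ω} (hconv : ConvTo Ω S P G H) (hS : SAMEP Ω S) (D : Dat m N)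
    (hz : ∀ j, D.z j ∈ Ω) {F : (Fin N → NonemptyCompacts ℂ) → ℝ} (hF : Continuous F) {C : ℝ}
    (hC : ∀ g, |F g| ≤ C) {s : ℝ} (hs : 0 < s) (hsub : ∀ j, closedBall (D.z j) (s / 2) ⊆ Ω) :
    ∫ x, F (fun l => G l x) * (D.W1 s (fun l => G l x) * D.V2 (fun l => G l x)) *
      ∏ j, sg Ω G H (D.k j) (D.z j) x ∂P = 0 := by
  have hC0 : 0 ≤ C := (abs_nonneg _).trans (hC (fun _ => ⟨⟨{0}, isCompact_singleton⟩, by simp⟩))
  have mG := fun k => (sc.meas k).1
  choose χ h0 h1 using fun j => exists_bump (D.z j) (half_pos hs)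
  set J : ℕ → ℝ := fun n => ∫ x, F (fun l => G l x) * (D.W1 s (fun l => G l x) *
    D.W2 (1 / ((n : ℝ) + 1)) (fun l => G l x)) * ∏ j, sg Ω G H (D.k j) (D.z j) x ∂P with hJ
  have hlim : Tendsto J atTop (𝓝 (∫ x, F (fun l => G l x) * (D.W1 s (fun l => G l x) *
      D.V2 (fun l => G l x)) * ∏ j, sg Ω G H (D.k j) (D.z j) x ∂P)) := by
    refine tendsto_integral_of_dominated_convergence (fun _ => C) (fun n => ?_)
      (integrable_const C) (fun n => ?_) ?_
    · exact (((measurable_cont mG hF).mul ((measurable_cont mG (D.continuous_W1 s)).mul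
        (measurable_cont mG (D.continuous_W2 _)))).mul (measurable_psg sc D)).aestronglyMeasurable
    · refine Eventually.of_forall fun x => ?_
      rw [Real.norm_eq_abs]
      exact abs_le3 (hC _) (D.abs_W_le _ _ _) (abs_psg D x)
    · refine Eventually.of_forall fun x => ?_
      exact (((tendsto_W2 D _).const_mul _).const_mul _).mul_const _
  have hle : ∀ ε : ℝ, 0 < ε → |∫ x, F (fun l => G l x) * (D.W1 s (fun l => G l x) *
      D.V2 (fun l => G l x)) * ∏ j, sg Ω G H (D.k j) (D.z j) x ∂P| ≤ C * ((m + 1) * ε) := by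
    intro ε hε
    obtain ⟨r0, hr0, hr⟩ := lim_le hconv hS D hz hF hC hs hsub h0 h1 hε
    refine le_of_tendsto hlim.abs ?_
    have h2 : ∀ᶠ n : ℕ in atTop, 1 / r0 < n := (tendsto_natCast_atTop_atTop (R := ℝ)).eventually_gt_atTop _
    filter_upwards [h2] with n hn
    have hn' : 1 / ((n : ℝ) + 1) ≤ r0 := by
      rw [div_lt_iff₀ hr0] at hn
      rw [div_le_iff₀ (by positivity)]
      nlinarith
    have h3 := hr (1 / ((n : ℝ) + 1)) (by positivity) hn'
    refine le_trans (le_of_eq ?_) h3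
    rw [hJ]
    congr 1
    refine integral_congr_ae ?_
    filter_upwards [typ sc] with x hx
    exact (FA_limit ho D hx hz F _ hs h0 h1).symm
  by_contra hne
  have hpos := abs_pos.2 hne
  have h4 := hle (|∫ x, F (fun l => G l x) * (D.W1 s (fun l => G l x) *
      D.V2 (fun l => G l x)) * ∏ j, sg Ω G H (D.k j) (D.z j) x ∂P| / (2 * (C * (m + 1) + 1)))
      (by positivity)
  set I := |∫ x, F (fun l => G l x) * (D.W1 s (fun l => G l x) *
      D.V2 (fun l => G l x)) * ∏ j, sg Ω G H (D.k j) (D.z j) x ∂P|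
  have h5 : C * ((m + 1) * (I / (2 * (C * (m + 1) + 1)))) = C * (m + 1) * I / (2 * (C * (m + 1) + 1)) := by
    ring
  rw [h5, le_div_iff₀ (by positivity)] at h4
  have h6 : 0 ≤ C * (m + 1) * I := by positivity
  nlinarith

theorem star0 [IsProbabilityMeasure P] (ho : IsOpen Ω) (sc : IsSignedCarpets P Ω G H)
    {S : TempApprox Ω} (hconv : ConvTo Ω S P G H) (hS : SAMEP Ω S) (D : Dat m N)
    (hz : ∀ j, D.z j ∈ Ω) {F : (Fin N → NonemptyCompacts ℂ) → ℝ} (hF : Continuous F) {C : ℝ}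
    (hC : ∀ g, |F g| ≤ C) :
    ∫ x, F (fun l => G l x) * (D.V1 (fun l => G l x) * D.V2 (fun l => G l x)) *
      ∏ j, sg Ω G H (D.k j) (D.z j) x ∂P = 0 := by
  have mG := fun k => (sc.meas k).1
  have mV2 : Measurable fun x => D.V2 (fun l => G l x) := by
    refine measurable_of_tendsto_metrizable
      (f := fun (n : ℕ) x => D.W2 (1 / ((n : ℝ) + 1)) (fun l => G l x))
      (fun n => measurable_cont mG (D.continuous_W2 _)) ?_
    rw [tendsto_pi_nhds]
    exact fun x => tendsto_W2 D _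
  have hV2 : ∀ g, |D.V2 g| ≤ 1 := by
    intro g
    refine le_of_tendsto (tendsto_W2 D g).abs (Eventually.of_forall fun n => ?_)
    rw [abs_of_nonneg (D.W2_nonneg _ _)]
    exact D.W2_le _ _
  have hlim : Tendsto (fun n : ℕ => ∫ x, F (fun l => G l x) *
      (D.W1 (1 / ((n : ℝ) + 1)) (fun l => G l x) * D.V2 (fun l => G l x)) *
      ∏ j, sg Ω G H (D.k j) (D.z j) x ∂P) atTop (𝓝 (∫ x, F (fun l => G l x) *
      (D.V1 (fun l => G l x) * D.V2 (fun l => G l x)) * ∏ j, sg Ω G H (D.k j) (D.z j) x ∂P)) := by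
    refine tendsto_integral_of_dominated_convergence (fun _ => C) (fun n => ?_)
      (integrable_const C) (fun n => ?_) ?_
    · exact (((measurable_cont mG hF).mul ((measurable_cont mG (D.continuous_W1 _)).mul
        mV2)).mul (measurable_psg sc D)).aestronglyMeasurable
    · refine Eventually.of_forall fun x => ?_
      rw [Real.norm_eq_abs]
      refine abs_le3 (hC _) ?_ (abs_psg D x)
      rw [abs_mul, abs_of_nonneg (D.W1_nonneg _ _)]
      exact mul_le_one₀ (D.W1_le _ _) (abs_nonneg _) (hV2 _)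
    · refine Eventually.of_forall fun x => ?_
      exact (((tendsto_W1 D _).mul_const _).const_mul _).mul_const _
  refine tendsto_nhds_unique hlim ?_
  have hball : ∀ j, ∃ ρ : ℝ, 0 < ρ ∧ closedBall (D.z j) ρ ⊆ Ω := fun j => by
    obtain ⟨ρ, hρ, h⟩ := nhds_basis_closedBall.mem_iff.mp (ho.mem_nhds (hz j))
    exact ⟨ρ, hρ, h⟩
  choose ρ hρ hρs using hball
  have hev : ∀ j, ∀ᶠ n : ℕ in atTop, closedBall (D.z j) (1 / ((n : ℝ) + 1) / 2) ⊆ Ω := by
    intro j
    have h2 : ∀ᶠ n : ℕ in atTop, 1 / ρ j < n :=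
      (tendsto_natCast_atTop_atTop (R := ℝ)).eventually_gt_atTop _
    filter_upwards [h2] with n hn
    refine (closedBall_subset_closedBall ?_).trans (hρs j)
    have h3 := hρ j
    rw [div_lt_iff₀ h3] at hn
    rw [div_div, div_le_iff₀ (by positivity)]
    nlinarith
  refine tendsto_const_nhds.congr' ?_
  filter_upwards [eventually_all.2 hev] with n hn
  exact (star_s ho sc hconv hS D hz hF hC (s := 1 / ((n : ℝ) + 1)) (by positivity) hn).symm

end Vale.Agent.P155.Ex795
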